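import Vale.Agent.Lib.P238.Perm

/-!
Rotations of blocks of consecutive coordinates and the multi-scale inequality.
-/

set_option linter.unusedSectionVars false

namespace Vale.Agent.P238

open Finset

/-! ### Rotations -/

/-- Rotation by `r` of the `d`-th block of length `M`, on the natural numbers. -/
def rotNat (M d r i : ℕ) : ℕ := if i / M = d then d * M + (i % M + r) % M else i

lemma rotNat_of_ne {M d r i : ℕ} (h : i / M ≠ d) : rotNat M d r i = i := by
  simp [rotNat, h]

lemma rotNat_block {M d r i : ℕ} (hM : 0 < M) (h : i / M = d) :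
    rotNat M d r i / M = d ∧ rotNat M d r i % M = (i % M + r) % M := by
  simp only [rotNat, h, if_true]
  have hlt : (i % M + r) % M < M := Nat.mod_lt _ hM
  constructor
  · rw [mul_comm, Nat.mul_add_div hM, Nat.div_eq_of_lt hlt, add_zero]
  · rw [mul_comm, Nat.mul_add_mod]
    exact Nat.mod_eq_of_lt hlt

lemma rotNat_rotNat {M d r s i : ℕ} (hM : 0 < M) :
    rotNat M d r (rotNat M d s i) = rotNat M d (r + s) i := by
  by_cases h : i / M = d
  · have hb := rotNat_block (r := s) hM h
    rw [rotNat, if_pos hb.1, hb.2, rotNat, if_pos h]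
    congr 1
    rw [Nat.mod_add_mod]
    congr 1; ring
  · rw [rotNat_of_ne h, rotNat_of_ne h, rotNat_of_ne h]

lemma rotNat_mul {M d r i : ℕ} : rotNat M d (M * r) i = i := by
  by_cases h : i / M = d
  · rw [rotNat, if_pos h, Nat.add_mul_mod_self_left, Nat.mod_mod, ← h]
    exact Nat.div_add_mod' i M
  · exact rotNat_of_ne h

lemma rotNat_lt {N M d r i : ℕ} (hM : 0 < M) (hN : M ∣ N) (hi : i < N) : rotNat M d r i < N := by
  by_cases h : i / M = d
  · have hb := rotNat_block (r := r) hM h
    obtain ⟨t, rfl⟩ := hN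
    have h1 : rotNat M d r i / M < t := by
      rw [hb.1, ← h]
      exact Nat.div_lt_of_lt_mul hi
    rw [mul_comm]
    exact (Nat.div_lt_iff_lt_mul hM).mp h1
  · rw [rotNat_of_ne h]; exact hi

/-- Rotation by `r` of the `d`-th block of length `M` in `Fin N` (when `M` divides `N`). -/
def rot (N M d r : ℕ) : Equiv.Perm (Fin N) :=
  if h : 0 < M ∧ M ∣ N then
    { toFun := fun i => ⟨rotNat M d r i, rotNat_lt h.1 h.2 i.2⟩
      invFun := fun i => ⟨rotNat M d ((M - 1) * r) i, rotNat_lt h.1 h.2 i.2⟩
      left_inv := by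
        intro i
        apply Fin.ext
        change rotNat M d ((M - 1) * r) (rotNat M d r i) = i
        rw [rotNat_rotNat h.1]
        have : (M - 1) * r + r = M * r := by
          obtain ⟨m, rfl⟩ : ∃ m, M = m + 1 := ⟨M - 1, by have := h.1; omega⟩
          simp only [Nat.add_sub_cancel]; ring
        rw [this, rotNat_mul]
      right_inv := by
        intro i
        apply Fin.ext
        change rotNat M d r (rotNat M d ((M - 1) * r) i) = i
        rw [rotNat_rotNat h.1]
        have : r + (M - 1) * r = M * r := by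
          obtain ⟨m, rfl⟩ : ∃ m, M = m + 1 := ⟨M - 1, by have := h.1; omega⟩
          simp only [Nat.add_sub_cancel]; ring
        rw [this, rotNat_mul] }
  else 1

lemma rot_val {N M : ℕ} (hM : 0 < M) (hN : M ∣ N) (d r : ℕ) (i : Fin N) :
    ((rot N M d r i : Fin N) : ℕ) = rotNat M d r i := by
  unfold rot
  rw [dif_pos ⟨hM, hN⟩]
  rfl

lemma rot_add {N M : ℕ} (hM : 0 < M) (hN : M ∣ N) (d r s : ℕ) :
    rot N M d (r + s) = rot N M d r * rot N M d s := by
  apply Equiv.ext
  intro i
  apply Fin.ext
  rw [Equiv.Perm.mul_apply, rot_val hM hN, rot_val hM hN, rot_val hM hN, rotNat_rotNat hM]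

lemma rot_zero {N M : ℕ} (hM : 0 < M) (hN : M ∣ N) (d : ℕ) : rot N M d 0 = 1 := by
  apply Equiv.ext
  intro i
  apply Fin.ext
  rw [rot_val hM hN, Equiv.Perm.one_apply]
  have := rotNat_mul (M := M) (d := d) (r := 0) (i := i)
  simpa using this

lemma rot_pow {N M : ℕ} (hM : 0 < M) (hN : M ∣ N) (d r : ℕ) :
    rot N M d r = (rot N M d 1) ^ r := by
  induction r with
  | zero => rw [rot_zero hM hN, pow_zero]
  | succ r ih => rw [rot_add hM hN, ih, pow_succ]

lemma rot_fix {N M : ℕ} (hM : 0 < M) (hN : M ∣ N) (d r : ℕ) (i : Fin N) (h : (i : ℕ) / M ≠ d) :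
    rot N M d r i = i := by
  apply Fin.ext
  rw [rot_val hM hN, rotNat_of_ne h]

lemma rot_injOn {N M : ℕ} (hM : 0 < M) (hN : M ∣ N) (d t : ℕ) (ht : t ≤ M) (i : Fin N)
    (h : (i : ℕ) / M = d) :
    Set.InjOn (fun r : ℕ => (((rot N M d 1).symm) ^ r) i) (range t) := by
  have key : ∀ a b : ℕ, a ≤ b → b < t →
      (((rot N M d 1).symm) ^ a) i = (((rot N M d 1).symm) ^ b) i → a = b := by
    intro a b hab hb heq
    obtain ⟨e, rfl⟩ := Nat.exists_eq_add_of_le hab
    have h1 : ((rot N M d 1)) ^ e * ((rot N M d 1).symm) ^ (a + e) = ((rot N M d 1).symm) ^ a := by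
      change ((rot N M d 1)) ^ e * ((rot N M d 1)⁻¹) ^ (a + e) = ((rot N M d 1)⁻¹) ^ a
      rw [pow_add, inv_pow, inv_pow]
      have : Commute ((rot N M d 1) ^ e) (((rot N M d 1) ^ a)⁻¹) :=
        ((Commute.refl (rot N M d 1)).pow_pow e a).inv_right
      rw [← mul_assoc, this.eq, mul_assoc, mul_inv_cancel, mul_one]
    have h2 : (((rot N M d 1)) ^ e) ((((rot N M d 1).symm) ^ a) i)
        = (((rot N M d 1).symm) ^ a) i := by
      conv_lhs => rw [heq]
      rw [← Equiv.Perm.mul_apply, h1]
    -- the point reached is in the block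
    have hblock : ∀ r : ℕ, (((((rot N M d 1).symm) ^ r) i : Fin N) : ℕ) / M = d := by
      intro r
      induction r with
      | zero => simpa using h
      | succ r ih =>
        rw [pow_succ', Equiv.Perm.mul_apply]
        set j := (((rot N M d 1).symm) ^ r) i
        by_contra hcon
        have h3 := rot_fix hM hN d 1 ((rot N M d 1).symm j) hcon
        rw [Equiv.apply_symm_apply] at h3
        rw [← h3] at hcon
        exact hcon ih
    set j := (((rot N M d 1).symm) ^ a) i with hj
    have hjb := hblock a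
    rw [← rot_pow hM hN] at h2
    have h4 := congrArg (fun x : Fin N => (x : ℕ) % M) h2
    simp only [rot_val hM hN] at h4
    rw [(rotNat_block hM hjb).2] at h4
    -- (j % M + e) % M = j % M
    have h5 : e < M := by omega
    have h6 : (j : ℕ) % M < M := Nat.mod_lt _ hM
    by_cases hlt : (j : ℕ) % M + e < M
    · rw [Nat.mod_eq_of_lt hlt] at h4
      omega
    · have h7 : ((j : ℕ) % M + e) % M = (j : ℕ) % M + e - M := by
        rw [Nat.mod_eq_sub_mod (by omega), Nat.mod_eq_of_lt (by omega)]
      rw [h7] at h4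
      omega
  intro a ha b hb hab
  simp only [coe_range, Set.mem_Iio] at ha hb
  rcases le_total a b with h' | h'
  · exact key a b h' hb hab
  · exact (key b a h' ha hab.symm).symm

/-! ### Swapping halves, explicit formulas -/

lemma div_two_mul {h i a : ℕ} : i / (2 * h) = a ↔ (i / h = 2 * a ∨ i / h = 2 * a + 1) := by
  rw [mul_comm, ← Nat.div_div_eq_div_mul]
  omega

lemma swap_low {h a i : ℕ} (hh : 0 < h) (hi : i / h = 2 * a) : rotNat (2 * h) a h i = i + h := by
  have h1 : i / (2 * h) = a := div_two_mul.mpr (Or.inl hi)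
  rw [rotNat, if_pos h1]
  have h2 : i = h * (2 * a) + i % h := by rw [← hi]; exact (Nat.div_add_mod i h).symm
  have h3 : i % h < h := Nat.mod_lt _ hh
  have h4 : i % (2 * h) = i % h := by
    conv_lhs => rw [h2]
    rw [show h * (2 * a) = 2 * h * a by ring, Nat.mul_add_mod]
    exact Nat.mod_eq_of_lt (by omega)
  rw [h4, Nat.mod_eq_of_lt (by omega)]
  have h5 : a * (2 * h) = h * (2 * a) := by ring
  omega

lemma swap_high {h a i : ℕ} (hh : 0 < h) (hi : i / h = 2 * a + 1) :
    rotNat (2 * h) a h i + h = i := by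
  have h1 : i / (2 * h) = a := div_two_mul.mpr (Or.inr hi)
  rw [rotNat, if_pos h1]
  have h2 : i = h * (2 * a + 1) + i % h := by rw [← hi]; exact (Nat.div_add_mod i h).symm
  have h3 : i % h < h := Nat.mod_lt _ hh
  have h4 : i % (2 * h) = h + i % h := by
    conv_lhs => rw [h2]
    rw [show h * (2 * a + 1) + i % h = 2 * h * a + (h + i % h) by ring, Nat.mul_add_mod]
    exact Nat.mod_eq_of_lt (by omega)
  have h6 : (h + i % h + h) % (2 * h) = i % h := by
    rw [show h + i % h + h = i % h + 2 * h by ring, Nat.add_mod_right]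
    exact Nat.mod_eq_of_lt (by omega)
  rw [h4, h6]
  have h5 : a * (2 * h) + h = h * (2 * a + 1) := by ring
  omega

/-- rotation by `h` of a long block, away from the end of the block. -/
lemma rot_shift {h β a i : ℕ} (hh : 0 < h) (hβ : 0 < β) (hi : i / h = 2 * a) :
    rotNat (2 * h * β) (a / β) h i = i + h := by
  have h1 : i / (2 * h) = a := div_two_mul.mpr (Or.inl hi)
  have h2 : i / (2 * h * β) = a / β := by rw [← Nat.div_div_eq_div_mul, h1]
  rw [rotNat, if_pos h2]
  have hM : 0 < 2 * h * β := by positivity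
  have h3 : i % (2 * h * β) + h < 2 * h * β := by
    -- i = 2h * a + i % h ; a = β * (a/β) + a % β
    have e1 : i = h * (2 * a) + i % h := by rw [← hi]; exact (Nat.div_add_mod i h).symm
    have e2 : i % h < h := Nat.mod_lt _ hh
    have e3 : a = β * (a / β) + a % β := (Nat.div_add_mod a β).symm
    have e4 : a % β < β := Nat.mod_lt _ hβ
    have e5 : i = 2 * h * β * (a / β) + (2 * h * (a % β) + i % h) := by
      conv_lhs => rw [e1]
      conv_lhs => rw [e3]
      ring
    have e6 : 2 * h * (a % β) + i % h + h < 2 * h * β := by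
      have : 2 * h * (a % β) + 2 * h ≤ 2 * h * β := by
        rw [← Nat.mul_succ]; exact Nat.mul_le_mul_left _ e4
      omega
    have e7 : i % (2 * h * β) = 2 * h * (a % β) + i % h := by
      conv_lhs => rw [e5]
      rw [Nat.mul_add_mod]
      exact Nat.mod_eq_of_lt (by omega)
    omega
  rw [Nat.mod_eq_of_lt h3, ← h2]
  have := Nat.div_add_mod' i (2 * h * β)
  omega

end Vale.Agent.P238
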