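import Mathlib

/-!
From cuts to maps into `ℓ₁`: a linear inequality which holds for all cut semimetrics holds
for all `ℓ₁` distances.
-/

namespace Vale.Agent.P238

open Finset MeasureTheory

/-- the sign cut at level `θ` -/
noncomputable def lev (θ a : ℝ) : ℝ := if θ < a then 1 else -1

lemma lev_pm (θ a : ℝ) : lev θ a = 1 ∨ lev θ a = -1 := by
  unfold lev; split_ifs <;> simp

lemma lev_sq_eq (a b : ℝ) : (fun θ => ((lev θ a - lev θ b) / 2) ^ 2)
    = Set.indicator (Set.Ico (min a b) (max a b)) (fun _ => (1:ℝ)) := by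
  funext θ
  unfold lev Set.indicator
  by_cases h1 : θ < a <;> by_cases h2 : θ < b <;> simp only [h1, h2, if_true, if_false]
  · rw [if_neg]
    · norm_num
    · simp only [Set.mem_Ico, not_and, not_lt]
      intro h3
      exact absurd (lt_min h1 h2) (not_lt.mpr h3)
  · rw [if_pos]
    · norm_num
    · simp only [Set.mem_Ico]
      exact ⟨(min_le_right _ _).trans (not_lt.mp h2), lt_max_of_lt_left h1⟩
  · rw [if_pos]
    · norm_num
    · simp only [Set.mem_Ico]
      exact ⟨(min_le_left _ _).trans (not_lt.mp h1), lt_max_of_lt_right h2⟩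
  · rw [if_neg]
    · norm_num
    · simp only [Set.mem_Ico, not_and, not_lt]
      intro _
      exact max_le (not_lt.mp h1) (not_lt.mp h2)

lemma lev_integrable (a b : ℝ) : Integrable (fun θ => ((lev θ a - lev θ b) / 2) ^ 2) := by
  rw [lev_sq_eq]
  have h1 : volume (Set.Ico (min a b) (max a b)) ≠ ⊤ := by
    rw [Real.volume_Ico]; exact ENNReal.ofReal_ne_top
  have h2 : ‖(1:ℝ)‖ₑ ≠ ⊤ := enorm_ne_top
  have h3 : IntegrableOn (fun _ : ℝ => (1:ℝ)) (Set.Ico (min a b) (max a b)) volume :=
    integrableOn_const h1 h2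
  exact h3.integrable_indicator measurableSet_Ico

lemma lev_integral (a b : ℝ) : ∫ θ, ((lev θ a - lev θ b) / 2) ^ 2 = |a - b| := by
  rw [lev_sq_eq, integral_indicator measurableSet_Ico]
  simp only [integral_const, MeasurableSet.univ, measureReal_restrict_apply, Set.univ_inter,
    smul_eq_mul, mul_one]
  rw [Real.volume_real_Ico_of_le min_le_max, max_sub_min_eq_abs, abs_sub_comm]

variable {X : Type} [Fintype X] [DecidableEq X]

/-- Cut inequality implies the inequality for real valued functions. -/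
lemma cut_to_real (L : ((X × X) → ℝ) →ₗ[ℝ] ℝ)
    (h : ∀ g : X → ℝ, (∀ x, g x = 1 ∨ g x = -1) → 0 ≤ L (fun p => ((g p.1 - g p.2) / 2) ^ 2))
    (u : X → ℝ) : 0 ≤ L (fun p => |u p.1 - u p.2|) := by
  rw [LinearMap.pi_apply_eq_sum_univ]
  have h1 : ∀ θ : ℝ, 0 ≤ ∑ p : X × X, ((lev θ (u p.1) - lev θ (u p.2)) / 2) ^ 2
      • L (fun j => if p = j then 1 else 0) := by
    intro θ
    have := h (fun x => lev θ (u x)) (fun x => lev_pm θ (u x))
    rw [LinearMap.pi_apply_eq_sum_univ] at this
    exact this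
  have h2 : ∑ p : X × X, |u p.1 - u p.2| • L (fun j => if p = j then 1 else 0)
      = ∫ θ, ∑ p : X × X, ((lev θ (u p.1) - lev θ (u p.2)) / 2) ^ 2
      • L (fun j => if p = j then 1 else 0) := by
    rw [integral_finsetSum]
    · apply sum_congr rfl
      intro p _
      simp only [smul_eq_mul]
      rw [integral_mul_const, lev_integral]
    · intro p _
      simp only [smul_eq_mul]
      exact (lev_integrable _ _).mul_const _
  rw [h2]
  exact integral_nonneg h1

/-- Cut inequality implies the inequality for maps into `ℓ₁`. -/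
lemma cut_to_l1 (L : ((X × X) → ℝ) →ₗ[ℝ] ℝ)
    (h : ∀ g : X → ℝ, (∀ x, g x = 1 ∨ g x = -1) → 0 ≤ L (fun p => ((g p.1 - g p.2) / 2) ^ 2))
    (G : X → lp (fun _ : ℕ => ℝ) 1) : 0 ≤ L (fun p => ‖G p.1 - G p.2‖) := by
  have hnorm : ∀ v : lp (fun _ : ℕ => ℝ) 1, ‖v‖ = ∑' k, |v k| := by
    intro v
    rw [lp.norm_eq_tsum_rpow (by norm_num : 0 < (1 : ENNReal).toReal)]
    simp
  have hsum : ∀ v : lp (fun _ : ℕ => ℝ) 1, Summable (fun k => |v k|) := by
    intro v
    have := (lp.memℓp v).summable (by norm_num : 0 < (1 : ENNReal).toReal)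
    simpa using this
  rw [LinearMap.pi_apply_eq_sum_univ]
  have h1 : ∀ k : ℕ, 0 ≤ ∑ p : X × X, |G p.1 k - G p.2 k| • L (fun j => if p = j then 1 else 0) := by
    intro k
    have := cut_to_real L h (fun x => G x k)
    rw [LinearMap.pi_apply_eq_sum_univ] at this
    exact this
  have h2 : ∑ p : X × X, ‖G p.1 - G p.2‖ • L (fun j => if p = j then 1 else 0)
      = ∑' k : ℕ, ∑ p : X × X, |G p.1 k - G p.2 k| • L (fun j => if p = j then 1 else 0) := by
    rw [Summable.tsum_finsetSum]
    · apply sum_congr rfl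
      intro p _
      simp only [smul_eq_mul]
      rw [tsum_mul_right, hnorm]
      rfl
    · intro p _
      simp only [smul_eq_mul]
      exact (hsum (G p.1 - G p.2)).mul_right _
  rw [h2]
  exact tsum_nonneg h1

end Vale.Agent.P238
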