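import Mathlib

/-!
# Edit distance and `ℓ₁` distortion

The definitions used in the statements for problem P238.
-/

namespace Vale.Agent.P238

/-- A single-symbol edit of a finite word: one insertion, one deletion or one substitution. -/
inductive EditStep {α : Type} : List α → List α → Prop
  | insertion (u v : List α) (a : α) : EditStep (u ++ v) (u ++ a :: v)
  | deletion (u v : List α) (a : α) : EditStep (u ++ a :: v) (u ++ v)
  | substitution (u v : List α) (a b : α) : EditStep (u ++ a :: v) (u ++ b :: v)

/-- `EditPath k x y` says that `k` successive single-symbol edits transform `x` into `y`. -/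
inductive EditPath {α : Type} : ℕ → List α → List α → Prop
  | refl (x : List α) : EditPath 0 x x
  | cons {k : ℕ} {x y z : List α} (h : EditStep x y) (p : EditPath k y z) : EditPath (k + 1) x z

/-- The edit distance: the least number of single-symbol insertions, deletions and substitutions
which transform `x` into `y`. -/
noncomputable def editDist {α : Type} (x y : List α) : ℕ := sInf {k : ℕ | EditPath k x y}

/-- The edit distance on binary words of length `n`. -/
noncomputable def ED (n : ℕ) (x y : Fin n → Bool) : ℝ :=
  (editDist (List.ofFn x) (List.ofFn y) : ℝ)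

/-- The distortion of a map `f` from a space with distance function `ρ` into the real space `ℓ₁`
of absolutely summable sequences. -/
noncomputable def distortion {X : Type} (ρ : X → X → ℝ) (f : X → lp (fun _ : ℕ => ℝ) 1) : ℝ :=
  (⨆ p : {p : X × X // p.1 ≠ p.2}, ‖f p.1.1 - f p.1.2‖ / ρ p.1.1 p.1.2) *
    (⨆ p : {p : X × X // p.1 ≠ p.2}, ρ p.1.1 p.1.2 / ‖f p.1.1 - f p.1.2‖)

/-- The `ℓ₁` distortion of a space: the infimum of the distortions of its injective maps
into `ℓ₁`. -/
noncomputable def cOne {X : Type} (ρ : X → X → ℝ) : ℝ :=
  sInf {D : ℝ | ∃ f : X → lp (fun _ : ℕ => ℝ) 1, Function.Injective f ∧ distortion ρ f = D}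

end Vale.Agent.P238
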