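import Vale.Agent.Lib.P238.Defs

/-!
Basic facts on the edit distance: paths, common subsequences, upper bounds for substitutions
and rotations, and the counting of words with a long common subsequence.
-/

namespace Vale.Agent.P238

open Finset

variable {α : Type}

lemma EditPath.trans {a b : ℕ} {x y z : List α} (h1 : EditPath a x y) (h2 : EditPath b y z) :
    EditPath (a + b) x z := by
  induction h1 with
  | refl x => simpa using h2
  | cons h _ ih =>
    have := EditPath.cons h (ih h2)
    rw [show ∀ k : ℕ, k + b + 1 = k + 1 + b from fun k => by ring] at this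
    exact this

lemma EditStep.path {x y : List α} (h : EditStep x y) : EditPath 1 x y :=
  EditPath.cons h (EditPath.refl y)

lemma path_to_nil (x : List α) : EditPath x.length x [] := by
  induction x with
  | nil => exact EditPath.refl []
  | cons a l ih => exact EditPath.cons (EditStep.deletion [] l a) ih

lemma path_from_nil (x : List α) : EditPath x.length [] x := by
  induction x with
  | nil => exact EditPath.refl []
  | cons a l ih => exact ih.trans (EditStep.insertion [] l a).path

lemma exists_path (x y : List α) : ∃ k, EditPath k x y :=
  ⟨_, (path_to_nil x).trans (path_from_nil y)⟩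

lemma editDist_le {k : ℕ} {x y : List α} (h : EditPath k x y) : editDist x y ≤ k :=
  Nat.sInf_le h

lemma editDist_spec (x y : List α) : EditPath (editDist x y) x y :=
  Nat.sInf_mem (exists_path x y)

lemma editDist_pos {x y : List α} (h : x ≠ y) : 0 < editDist x y := by
  rw [Nat.pos_iff_ne_zero]
  intro h0
  have := editDist_spec x y
  rw [h0] at this
  cases this
  exact h rfl

lemma sublist_drop_one {u v w : List α} {a : α} (h : w.Sublist (u ++ a :: v)) :
    ∃ w' : List α, w'.Sublist w ∧ w'.Sublist (u ++ v) ∧ w.length ≤ w'.length + 1 := by
  obtain ⟨w1, w2, rfl, h1, h2⟩ := List.sublist_append_iff.mp h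
  rw [List.sublist_cons_iff] at h2
  rcases h2 with h2 | ⟨r, rfl, h2⟩
  · exact ⟨w1 ++ w2, List.Sublist.refl _, h1.append h2, by omega⟩
  · refine ⟨w1 ++ r, ?_, h1.append h2, ?_⟩
    · exact (List.Sublist.refl _).append (List.sublist_cons_self _ _)
    · simp only [List.length_append, List.length_cons]; omega

/-- Words at edit distance `k` have a common subsequence missing at most `k` symbols of each. -/
lemma EditPath.common {k : ℕ} {x y : List α} (h : EditPath k x y) :
    ∃ z : List α, z.Sublist x ∧ z.Sublist y ∧ x.length ≤ z.length + k ∧ y.length ≤ z.length + k := by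
  induction h with
  | refl x => exact ⟨x, List.Sublist.refl _, List.Sublist.refl _, by omega, by omega⟩
  | cons hstep _ ih =>
    obtain ⟨w, hwy, hwz, hy, hz⟩ := ih
    cases hstep with
    | insertion u v a =>
      obtain ⟨w', h1, h2, h3⟩ := sublist_drop_one hwy
      refine ⟨w', h2, h1.trans hwz, ?_, by omega⟩
      simp only [List.length_append, List.length_cons] at hy ⊢
      omega
    | deletion u v a =>
      refine ⟨w, ?_, hwz, ?_, by omega⟩
      · exact hwy.trans ((List.Sublist.refl u).append (List.sublist_cons_self a v))
      · simp only [List.length_append, List.length_cons] at hy ⊢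
        omega
    | substitution u v a b =>
      obtain ⟨w', h1, h2, h3⟩ := sublist_drop_one hwy
      refine ⟨w', ?_, h1.trans hwz, ?_, by omega⟩
      · exact h2.trans ((List.Sublist.refl u).append (List.sublist_cons_self a v))
      · simp only [List.length_append, List.length_cons] at hy ⊢
        omega

lemma sublist_local {A U C z : List α} {r : ℕ} (hz : z.Sublist (A ++ (U ++ C)))
    (hr : A.length + U.length + C.length ≤ z.length + r) :
    ((z.drop A.length).take (U.length - r)).Sublist U := by
  obtain ⟨z1, z23, rfl, h1, h23⟩ := List.sublist_append_iff.mp hz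
  obtain ⟨z2, z3, rfl, h2, h3⟩ := List.sublist_append_iff.mp h23
  have l1 := h1.length_le
  have l2 := h2.length_le
  have l3 := h3.length_le
  simp only [List.length_append] at hr
  rw [List.drop_append, List.drop_eq_nil_of_le l1, List.nil_append]
  by_cases hc : U.length ≤ r
  · rw [Nat.sub_eq_zero_of_le hc]
    simp
  · push Not at hc
    rw [List.drop_append_of_le_length (by omega), List.take_append_of_le_length
      (by rw [List.length_drop]; omega)]
    exact ((List.take_sublist _ _).trans (List.drop_sublist _ _)).trans h2

/-- Localisation: words at small edit distance have long common subsequences in corresponding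
blocks. -/
lemma local_common {A U C A' V C' : List α} {r : ℕ} (hA : A.length = A'.length)
    (hU : U.length = V.length) (hC : C.length = C'.length)
    (h : editDist (A ++ (U ++ C)) (A' ++ (V ++ C')) ≤ r) :
    ∃ w : List α, w.Sublist U ∧ w.Sublist V ∧ w.length = U.length - r := by
  obtain ⟨z, h1, h2, h3, h4⟩ := (editDist_spec (A ++ (U ++ C)) (A' ++ (V ++ C'))).common
  simp only [List.length_append] at h3 h4
  refine ⟨(z.drop A.length).take (U.length - r), ?_, ?_, ?_⟩
  · exact sublist_local h1 (by omega)
  · rw [hA, hU]
    exact sublist_local h2 (by omega)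
  · rw [List.length_take, List.length_drop]
    omega

/-! ### Words given by functions on the natural numbers -/

/-- The word `u 0, u 1, ..., u (n-1)`. -/
def word (n : ℕ) (u : ℕ → α) : List α := (List.range n).map u

lemma word_length (n : ℕ) (u : ℕ → α) : (word n u).length = n := by simp [word]

lemma word_add (a b : ℕ) (u : ℕ → α) : word (a + b) u = word a u ++ word b (fun j => u (a + j)) := by
  unfold word
  rw [List.range_add, List.map_append, List.map_map]
  rfl

lemma word_one (u : ℕ → α) : word 1 u = [u 0] := by simp [word]

lemma word_congr {n : ℕ} {u v : ℕ → α} (h : ∀ i < n, u i = v i) : word n u = word n v := by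
  unfold word
  apply List.map_congr_left
  intro i hi
  exact h i (List.mem_range.mp hi)

lemma editDist_subst {n i : ℕ} (hi : i < n) {u v : ℕ → α} (h : ∀ j, j ≠ i → u j = v j) :
    editDist (word n u) (word n v) ≤ 1 := by
  obtain ⟨m, rfl⟩ : ∃ m, n = i + (1 + m) := ⟨n - i - 1, by omega⟩
  rw [word_add, word_add 1 m, word_add, word_add 1 m, word_one, word_one]
  have h1 : word i u = word i v := word_congr fun j hj => h j (by omega)
  have h2 : word m (fun j => (fun j => u (i + j)) (1 + j))
      = word m (fun j => (fun j => v (i + j)) (1 + j)) := word_congr fun j _ => h _ (by omega)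
  rw [h1, h2]
  exact editDist_le (EditStep.substitution _ _ _ _).path

lemma editDist_rotate {n p m : ℕ} (hn : p + m < n) {u v : ℕ → α} (h1 : ∀ j, j < p → v j = u j)
    (h2 : ∀ j, j < m → v (p + j) = u (p + 1 + j)) (h3 : v (p + m) = u p)
    (h4 : ∀ j, p + m < j → v j = u j) :
    editDist (word n u) (word n v) ≤ 2 := by
  obtain ⟨q, rfl⟩ : ∃ q, n = p + (1 + (m + q)) := ⟨n - p - m - 1, by omega⟩
  have e1 : word (p + (1 + (m + q))) u
      = word p u ++ (u p :: (word m (fun j => u (p + 1 + j))
        ++ word q (fun j => u (p + 1 + m + j)))) := by
    rw [word_add, word_add 1 (m + q), word_one, word_add m q]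
    simp only [List.singleton_append, add_zero]
    congr 1
    congr 1
    congr 1
    · apply word_congr; intro j _; congr 1
      ring
    · apply word_congr; intro j _; congr 1
      ring
  have e2 : word (p + (1 + (m + q))) v
      = word p u ++ (word m (fun j => u (p + 1 + j)) ++ (u p ::
        word q (fun j => u (p + 1 + m + j)))) := by
    rw [show p + (1 + (m + q)) = p + (m + (1 + q)) by ring, word_add, word_add m (1 + q),
      word_add 1 q, word_one]
    simp only [List.singleton_append, add_zero]
    congr 1
    · apply word_congr; intro j hj; exact h1 j hj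
    · congr 1
      · apply word_congr; intro j hj; exact h2 j hj
      · rw [h3]
        congr 1
        apply word_congr; intro j hj
        rw [h4 _ (by omega)]
        congr 1
        ring
  rw [e1, e2]
  have s1 : EditStep (word p u ++ (u p :: (word m (fun j => u (p + 1 + j))
        ++ word q (fun j => u (p + 1 + m + j)))))
      (word p u ++ (word m (fun j => u (p + 1 + j)) ++ word q (fun j => u (p + 1 + m + j)))) :=
    EditStep.deletion _ _ _
  have s2 : EditStep ((word p u ++ word m (fun j => u (p + 1 + j)))
        ++ word q (fun j => u (p + 1 + m + j)))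
      ((word p u ++ word m (fun j => u (p + 1 + j))) ++ (u p ::
        word q (fun j => u (p + 1 + m + j)))) := EditStep.insertion _ _ _
  rw [List.append_assoc, List.append_assoc] at s2
  exact editDist_le (s1.path.trans s2.path)

/-! ### Counting -/

/-- The number of binary words of length `h` which contain `z` as a subsequence. -/
def cnt (z : List Bool) (h : ℕ) : ℕ :=
  (univ.filter (fun v : Fin h → Bool => z.Sublist (List.ofFn v))).card

lemma cnt_bound (h : ℕ) : ∀ z : List Bool, cnt z h * 16 ^ z.length ≤ 17 ^ h := by
  induction h with
  | zero =>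
    intro z
    unfold cnt
    cases z with
    | nil => simp
    | cons a z =>
      have : (univ.filter (fun v : Fin 0 → Bool => (a :: z).Sublist (List.ofFn v))) = ∅ := by
        apply filter_eq_empty_iff.mpr
        intro v _
        simp
      rw [this]; simp
  | succ h ih =>
    intro z
    cases z with
    | nil =>
      unfold cnt
      simp only [List.nil_sublist, filter_true, List.length_nil, pow_zero, mul_one]
      rw [card_univ, Fintype.card_fun, Fintype.card_bool, Fintype.card_fin]
      exact Nat.pow_le_pow_left (by norm_num) _
    | cons a z =>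
      have hle : cnt (a :: z) (h + 1) ≤ cnt z h + cnt (a :: z) h := by
        unfold cnt
        have hsub : (univ.filter (fun v : Fin (h + 1) → Bool => (a :: z).Sublist (List.ofFn v)))
            ⊆ (univ.filter (fun v : Fin h → Bool => z.Sublist (List.ofFn v))).image (Fin.cons a)
              ∪ (univ.filter (fun v : Fin h → Bool => (a :: z).Sublist (List.ofFn v))).image
                (Fin.cons (!a)) := by
          intro v hv
          have hv' := (mem_filter.mp hv).2
          rw [List.ofFn_succ] at hv'
          rw [mem_union, mem_image, mem_image]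
          by_cases ha : v 0 = a
          · left
            refine ⟨fun i => v i.succ, ?_, ?_⟩
            · rw [ha, List.cons_sublist_cons] at hv'
              exact mem_filter.mpr ⟨mem_univ _, hv'⟩
            · rw [← ha]; exact Fin.cons_self_tail v
          · right
            have ha' : v 0 = !a := by
              cases h0 : v 0 <;> cases a <;> simp_all
            refine ⟨fun i => v i.succ, ?_, ?_⟩
            · rw [List.sublist_cons_iff] at hv'
              rcases hv' with h1 | ⟨r, h1, h2⟩
              · exact mem_filter.mpr ⟨mem_univ _, h1⟩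
              · exfalso
                apply ha
                exact (List.cons.inj h1).1.symm
            · rw [← ha']; exact Fin.cons_self_tail v
        refine (card_le_card hsub).trans ((card_union_le _ _).trans ?_)
        exact add_le_add card_image_le card_image_le
      have h1 := ih z
      have h2 := ih (a :: z)
      rw [List.length_cons] at h2 ⊢
      calc cnt (a :: z) (h + 1) * 16 ^ (z.length + 1)
          ≤ (cnt z h + cnt (a :: z) h) * 16 ^ (z.length + 1) := Nat.mul_le_mul_right _ hle
        _ = 16 * (cnt z h * 16 ^ z.length) + cnt (a :: z) h * 16 ^ (z.length + 1) := by ring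
        _ ≤ 16 * 17 ^ h + 17 ^ h := add_le_add (Nat.mul_le_mul_left _ h1) h2
        _ = 17 ^ (h + 1) := by ring

lemma choose_bound (h l : ℕ) : h.choose l * 16 ^ l ≤ 17 ^ h := by
  have := (add_pow (16:ℕ) 1 h)
  norm_num at this
  rw [this]
  by_cases hl : l ≤ h
  · have hmem : l ∈ range (h + 1) := mem_range.mpr (by omega)
    calc h.choose l * 16 ^ l = 16 ^ l * h.choose l := by ring
      _ ≤ _ := single_le_sum (f := fun m => 16 ^ m * h.choose m) (fun _ _ => Nat.zero_le _) hmem
  · rw [Nat.choose_eq_zero_of_lt (by omega)]; simp

open scoped Classical in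
/-- The number of words of length `h` having a common subsequence of length `l` with a given
word of length `h`. -/
lemma count_common {h l : ℕ} (U : List Bool) (hU : U.length = h) :
    (univ.filter (fun v : Fin h → Bool => ∃ w : List Bool,
        w.Sublist U ∧ w.Sublist (List.ofFn v) ∧ w.length = l)).card * (16 ^ l * 16 ^ l)
      ≤ 17 ^ h * 17 ^ h := by
  have hsub : (univ.filter (fun v : Fin h → Bool => ∃ w : List Bool,
        w.Sublist U ∧ w.Sublist (List.ofFn v) ∧ w.length = l))
      ⊆ (U.sublistsLen l).toFinset.biUnion
        (fun w => univ.filter (fun v : Fin h → Bool => w.Sublist (List.ofFn v))) := by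
    intro v hv
    obtain ⟨w, h1, h2, h3⟩ := (mem_filter.mp hv).2
    rw [mem_biUnion]
    refine ⟨w, ?_, mem_filter.mpr ⟨mem_univ _, h2⟩⟩
    rw [List.mem_toFinset, List.mem_sublistsLen]
    exact ⟨h1, h3⟩
  have h1 : (univ.filter (fun v : Fin h → Bool => ∃ w : List Bool,
        w.Sublist U ∧ w.Sublist (List.ofFn v) ∧ w.length = l)).card
      ≤ ∑ w ∈ (U.sublistsLen l).toFinset, cnt w h := by
    refine (card_le_card hsub).trans (card_biUnion_le.trans (le_of_eq ?_))
    apply sum_congr rfl
    intro w _
    unfold cnt
    congr 1
  have h2 : (∑ w ∈ (U.sublistsLen l).toFinset, cnt w h) * 16 ^ l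
      ≤ h.choose l * 17 ^ h := by
    rw [sum_mul]
    calc ∑ w ∈ (U.sublistsLen l).toFinset, cnt w h * 16 ^ l
        ≤ ∑ _w ∈ (U.sublistsLen l).toFinset, 17 ^ h := by
          apply sum_le_sum
          intro w hw
          rw [List.mem_toFinset, List.mem_sublistsLen] at hw
          have := cnt_bound h w
          rw [hw.2] at this
          exact this
      _ = (U.sublistsLen l).toFinset.card * 17 ^ h := by rw [sum_const, smul_eq_mul]
      _ ≤ h.choose l * 17 ^ h := by
          apply Nat.mul_le_mul_right
          refine (List.toFinset_card_le _).trans ?_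
          rw [List.length_sublistsLen, hU]
  calc _ ≤ (∑ w ∈ (U.sublistsLen l).toFinset, cnt w h) * (16 ^ l * 16 ^ l) :=
        Nat.mul_le_mul_right _ h1
    _ = ((∑ w ∈ (U.sublistsLen l).toFinset, cnt w h) * 16 ^ l) * 16 ^ l := by ring
    _ ≤ (h.choose l * 17 ^ h) * 16 ^ l := Nat.mul_le_mul_right _ h2
    _ = (h.choose l * 16 ^ l) * 17 ^ h := by ring
    _ ≤ 17 ^ h * 17 ^ h := Nat.mul_le_mul_right _ (choose_bound h l)

end Vale.Agent.P238
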