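import Mathlib

/-!
Walsh-Fourier analysis on the discrete cube `ι → Bool`, the Bonami inequality and a
KKL-type inequality for functions with small influences.
-/

set_option linter.unusedSectionVars false

namespace Vale.Agent.P238

open Finset

section Mean

variable {X : Type} [Fintype X]

/-- The average of a function over a finite type. -/
noncomputable def mean (f : X → ℝ) : ℝ := (∑ x, f x) / (Fintype.card X : ℝ)

lemma mean_add (f g : X → ℝ) : mean (fun x => f x + g x) = mean f + mean g := by
  unfold mean; rw [sum_add_distrib, add_div]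

lemma mean_sub (f g : X → ℝ) : mean (fun x => f x - g x) = mean f - mean g := by
  unfold mean; rw [sum_sub_distrib, sub_div]

lemma mean_const_mul (c : ℝ) (f : X → ℝ) : mean (fun x => c * f x) = c * mean f := by
  unfold mean; rw [← mul_sum, mul_div_assoc]

lemma mean_mul_const (c : ℝ) (f : X → ℝ) : mean (fun x => f x * c) = mean f * c := by
  unfold mean; rw [← sum_mul, div_mul_eq_mul_div]

lemma mean_div_const (c : ℝ) (f : X → ℝ) : mean (fun x => f x / c) = mean f / c := by
  simp only [div_eq_mul_inv]; exact mean_mul_const _ _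

lemma mean_const [Nonempty X] (c : ℝ) : mean (fun _ : X => c) = c := by
  unfold mean
  have : (Fintype.card X : ℝ) ≠ 0 := by
    exact_mod_cast Fintype.card_ne_zero
  simp [this]

lemma mean_mono {f g : X → ℝ} (h : ∀ x, f x ≤ g x) : mean f ≤ mean g := by
  unfold mean
  apply div_le_div_of_nonneg_right
  · exact sum_le_sum fun x _ => h x
  · positivity

lemma mean_nonneg {f : X → ℝ} (h : ∀ x, 0 ≤ f x) : 0 ≤ mean f := by
  unfold mean
  apply div_nonneg (sum_nonneg fun x _ => h x)
  positivity

lemma mean_sum {κ : Type} (s : Finset κ) (f : κ → X → ℝ) :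
    mean (fun x => ∑ k ∈ s, f k x) = ∑ k ∈ s, mean (f k) := by
  unfold mean; rw [sum_comm, sum_div]

lemma mean_equiv (e : X ≃ X) (f : X → ℝ) : mean (fun x => f (e x)) = mean f := by
  unfold mean; congr 1; exact Equiv.sum_comp e f

lemma mean_comm {Y : Type} [Fintype Y] (f : X → Y → ℝ) :
    mean (fun x => mean (fun y => f x y)) = mean (fun y => mean (fun x => f x y)) := by
  unfold mean
  rw [← sum_div, ← sum_div, sum_comm, div_right_comm]

/-- Cauchy-Schwarz for averages. -/
lemma mean_mul_sq_le (f g : X → ℝ) :
    (mean (fun x => f x * g x)) ^ 2 ≤ mean (fun x => f x ^ 2) * mean (fun x => g x ^ 2) := by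
  unfold mean
  rw [div_pow, div_mul_div_comm, ← sq]
  apply div_le_div_of_nonneg_right _ (by positivity)
  exact sum_mul_sq_le_sq_mul_sq _ _ _

end Mean

section Fourier

variable {ι : Type} [Fintype ι] [DecidableEq ι]

/-- The sign attached to a bit. -/
def sg (b : Bool) : ℝ := if b then -1 else 1

lemma sg_mul_self (b : Bool) : sg b * sg b = 1 := by cases b <;> simp [sg]

lemma sg_not (b : Bool) : sg (!b) = - sg b := by cases b <;> simp [sg]

/-- Walsh characters. -/
def chi (S : Finset ι) (x : ι → Bool) : ℝ := ∏ i ∈ S, sg (x i)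

lemma chi_empty (x : ι → Bool) : chi ∅ x = 1 := by simp [chi]

lemma chi_insert {S : Finset ι} {i : ι} (hi : i ∉ S) (x : ι → Bool) :
    chi (insert i S) x = sg (x i) * chi S x := by simp [chi, prod_insert hi]

/-- Flip one bit. -/
def flip (i : ι) (x : ι → Bool) : ι → Bool := Function.update x i (!(x i))

lemma flip_flip (i : ι) (x : ι → Bool) : flip i (flip i x) = x := by
  unfold flip
  simp

/-- Flipping as a bijection. -/
def flipEquiv (i : ι) : (ι → Bool) ≃ (ι → Bool) where
  toFun := flip i
  invFun := flip i
  left_inv := flip_flip i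
  right_inv := flip_flip i

lemma flip_same (i : ι) (x : ι → Bool) : flip i x i = !(x i) := by simp [flip]

lemma flip_ne {i j : ι} (h : j ≠ i) (x : ι → Bool) : flip i x j = x j := by simp [flip, h]

lemma chi_flip_of_notMem {S : Finset ι} {i : ι} (hi : i ∉ S) (x : ι → Bool) :
    chi S (flip i x) = chi S x := by
  unfold chi
  apply prod_congr rfl
  intro j hj
  rw [flip_ne]
  rintro rfl; exact hi hj

lemma chi_flip_of_mem {S : Finset ι} {i : ι} (hi : i ∈ S) (x : ι → Bool) :
    chi S (flip i x) = - chi S x := by
  obtain ⟨T, hT, rfl⟩ : ∃ T, i ∉ T ∧ S = insert i T := ⟨S.erase i, by simp, by simp [hi]⟩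
  rw [chi_insert hT, chi_insert hT, chi_flip_of_notMem hT, flip_same, sg_not]
  ring

/-- Fourier coefficient. -/
noncomputable def fc (f : (ι → Bool) → ℝ) (S : Finset ι) : ℝ := mean (fun x => f x * chi S x)

lemma sum_chi_mul_chi (x y : ι → Bool) :
    ∑ S : Finset ι, chi S x * chi S y = if x = y then (2:ℝ) ^ (Fintype.card ι) else 0 := by
  have h1 : ∑ S : Finset ι, chi S x * chi S y = ∏ i : ι, (1 + sg (x i) * sg (y i)) := by
    rw [prod_one_add]
    simp only [powerset_univ, chi]
    apply sum_congr rfl
    intro S _
    rw [prod_mul_distrib]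
  rw [h1]
  split_ifs with h
  · subst h
    simp only [sg_mul_self]
    rw [prod_const]
    norm_num
  · obtain ⟨i, hi⟩ : ∃ i, x i ≠ y i := by
      by_contra hcon
      push Not at hcon
      exact h (funext hcon)
    apply prod_eq_zero (mem_univ i)
    rcases hx : x i <;> rcases hy : y i <;> simp_all [sg]

lemma card_cube : (Fintype.card (ι → Bool) : ℝ) = (2:ℝ) ^ (Fintype.card ι) := by
  simp

/-- Fourier inversion. -/
lemma fourier_inversion (f : (ι → Bool) → ℝ) (x : ι → Bool) :
    f x = ∑ S : Finset ι, fc f S * chi S x := by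
  have h : ∑ S : Finset ι, fc f S * chi S x
      = (∑ y, f y * ∑ S : Finset ι, chi S y * chi S x) / (2:ℝ) ^ (Fintype.card ι) := by
    unfold fc mean
    rw [card_cube]
    simp only [div_mul_eq_mul_div]
    rw [← sum_div]
    congr 1
    simp only [sum_mul, mul_sum]
    rw [sum_comm]
    apply sum_congr rfl
    intro y _
    apply sum_congr rfl
    intro S _
    ring
  rw [h]
  simp only [sum_chi_mul_chi, mul_ite, mul_zero]
  rw [sum_ite_eq' univ x]
  simp

/-- Plancherel. -/
lemma plancherel (f g : (ι → Bool) → ℝ) :
    mean (fun x => f x * g x) = ∑ S : Finset ι, fc f S * fc g S := by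
  have h : (fun x => f x * g x) = fun x => ∑ S : Finset ι, fc f S * (g x * chi S x) := by
    funext x
    conv_lhs => rw [fourier_inversion f x]
    rw [sum_mul]
    apply sum_congr rfl
    intro S _
    ring
  rw [h, mean_sum]
  apply sum_congr rfl
  intro S _
  rw [mean_const_mul]
  rfl

lemma parseval (f : (ι → Bool) → ℝ) :
    mean (fun x => f x ^ 2) = ∑ S : Finset ι, fc f S ^ 2 := by
  simp only [sq]
  exact plancherel f f

lemma mean_eq_zero_of_flip {i : ι} {Φ : (ι → Bool) → ℝ} (h : ∀ x, Φ (flip i x) = - Φ x) :
    mean Φ = 0 := by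
  have h1 := mean_equiv (flipEquiv i) Φ
  have h2 : mean (fun x => Φ ((flipEquiv i) x)) = - mean Φ := by
    have : (fun x => Φ ((flipEquiv i) x)) = fun x => (-1) * Φ x := by
      funext x
      change Φ (flip i x) = _
      rw [h]; ring
    rw [this, mean_const_mul]; ring
  linarith

/-- `fc` is linear: difference. -/
lemma fc_sub (f g : (ι → Bool) → ℝ) (S : Finset ι) :
    fc (fun x => f x - g x) S = fc f S - fc g S := by
  unfold fc
  rw [← mean_sub]
  congr 1; funext x; ring

lemma fc_flip (f : (ι → Bool) → ℝ) (i : ι) (S : Finset ι) :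
    fc (fun x => f (flip i x)) S = if i ∈ S then - fc f S else fc f S := by
  unfold fc
  rw [← mean_equiv (flipEquiv i)]
  change mean (fun x => f (flip i (flip i x)) * chi S (flip i x)) = _
  simp only [flip_flip]
  split_ifs with h
  · simp only [chi_flip_of_mem h]
    have : (fun x => f x * -chi S x) = fun x => (-1) * (f x * chi S x) := by
      funext x; ring
    rw [this, mean_const_mul]; ring
  · simp only [chi_flip_of_notMem h]

/-- Discrete derivative. -/
noncomputable def deriv' (i : ι) (f : (ι → Bool) → ℝ) (x : ι → Bool) : ℝ := (f x - f (flip i x)) / 2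

lemma fc_deriv (f : (ι → Bool) → ℝ) (i : ι) (S : Finset ι) :
    fc (deriv' i f) S = if i ∈ S then fc f S else 0 := by
  have : fc (deriv' i f) S = (fc f S - fc (fun x => f (flip i x)) S) / 2 := by
    rw [← fc_sub]
    unfold fc deriv'
    rw [← mean_div_const]
    congr 1; funext x; ring
  rw [this, fc_flip]
  split_ifs <;> ring

/-- The Fourier expansion of an explicit sum of characters over a powerset. -/
lemma fc_charSum (c : Finset ι → ℝ) (S : Finset ι) :
    fc (fun x => ∑ T : Finset ι, c T * chi T x) S = c S := by
  have key : ∀ T : Finset ι, mean (fun x => chi T x * chi S x) = if T = S then 1 else 0 := by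
    intro T
    by_cases hTS : T = S
    · subst hTS
      simp only [if_true]
      have : (fun x : ι → Bool => chi T x * chi T x) = fun _ => 1 := by
        funext x
        unfold chi
        rw [← prod_mul_distrib]
        simp [sg_mul_self]
      rw [this, mean_const]
    · simp only [hTS, if_false]
      obtain ⟨i, hi⟩ : ∃ i, ¬ (i ∈ T ↔ i ∈ S) := by
        by_contra hcon
        push Not at hcon
        exact hTS (Finset.ext hcon)
      apply mean_eq_zero_of_flip (i := i)
      intro x
      by_cases h1 : i ∈ T
      · have h2 : i ∉ S := fun h => hi ⟨fun _ => h, fun _ => h1⟩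
        rw [chi_flip_of_mem h1, chi_flip_of_notMem h2]; ring
      · have h2 : i ∈ S := by
          by_contra h
          exact hi ⟨fun h' => absurd h' h1, fun h' => absurd h' h⟩
        rw [chi_flip_of_notMem h1, chi_flip_of_mem h2]; ring
  unfold fc
  have : (fun x => (∑ T : Finset ι, c T * chi T x) * chi S x)
      = fun x => ∑ T : Finset ι, c T * (chi T x * chi S x) := by
    funext x
    rw [sum_mul]
    apply sum_congr rfl
    intro T _; ring
  rw [this, mean_sum]
  simp only [mean_const_mul, key]
  simp

end Fourier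

end Vale.Agent.P238
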