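import Vale.Agent.Lib.P238.Fourier

/-!
Bonami's inequality and a KKL-type inequality.
-/

set_option linter.unusedSectionVars false

namespace Vale.Agent.P238

open Finset

variable {ι : Type} [Fintype ι] [DecidableEq ι]

/-- Bonami's inequality for character sums. -/
lemma bonami (A : Finset ι) : ∀ c : Finset ι → ℝ,
    mean (fun x : ι → Bool => (∑ S ∈ A.powerset, c S * chi S x) ^ 4)
      ≤ (∑ S ∈ A.powerset, (3:ℝ) ^ S.card * c S ^ 2) ^ 2 := by
  induction A using Finset.induction_on with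
  | empty =>
    intro c
    simp only [powerset_empty, sum_singleton, chi_empty, mul_one, card_empty, pow_zero, one_mul]
    rw [mean_const]
    apply le_of_eq; ring
  | insert i A hi ih =>
    intro c
    set P : (ι → Bool) → ℝ := fun x => ∑ S ∈ A.powerset, c S * chi S x with hP
    set Q : (ι → Bool) → ℝ := fun x => ∑ S ∈ A.powerset, c (insert i S) * chi S x with hQ
    set p : ℝ := ∑ S ∈ A.powerset, (3:ℝ) ^ S.card * c S ^ 2 with hp
    set q : ℝ := ∑ S ∈ A.powerset, (3:ℝ) ^ S.card * c (insert i S) ^ 2 with hq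
    have hp0 : 0 ≤ p := sum_nonneg fun S _ => by positivity
    have hq0 : 0 ≤ q := sum_nonneg fun S _ => by positivity
    have hiS : ∀ S ∈ A.powerset, i ∉ S := fun S hS h => hi ((mem_powerset.mp hS) h)
    have h1 : ∀ x : ι → Bool, ∑ S ∈ (insert i A).powerset, c S * chi S x
        = P x + sg (x i) * Q x := by
      intro x
      rw [sum_powerset_insert hi]
      congr 1
      rw [hQ, mul_sum]
      apply sum_congr rfl
      intro S hS
      rw [chi_insert (hiS S hS)]; ring
    have h2 : ∑ S ∈ (insert i A).powerset, (3:ℝ) ^ S.card * c S ^ 2 = p + 3 * q := by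
      rw [sum_powerset_insert hi]
      congr 1
      rw [hq, mul_sum]
      apply sum_congr rfl
      intro S hS
      rw [card_insert_of_notMem (hiS S hS)]; ring
    have hPf : ∀ x, P (flip i x) = P x := by
      intro x
      apply sum_congr rfl
      intro S hS
      rw [chi_flip_of_notMem (hiS S hS)]
    have hQf : ∀ x, Q (flip i x) = Q x := by
      intro x
      apply sum_congr rfl
      intro S hS
      rw [chi_flip_of_notMem (hiS S hS)]
    have h3 : (fun x : ι → Bool => (∑ S ∈ (insert i A).powerset, c S * chi S x) ^ 4)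
        = fun x => ((P x ^ 4 + 6 * (P x ^ 2 * Q x ^ 2)) + Q x ^ 4)
            + sg (x i) * (4 * P x ^ 3 * Q x + 4 * P x * Q x ^ 3) := by
      funext x
      rw [h1 x]
      have hs := sg_mul_self (x i)
      have hs2 : sg (x i) ^ 2 = 1 := by rw [sq]; exact hs
      have hs3 : sg (x i) ^ 3 = sg (x i) := by rw [pow_succ, hs2, one_mul]
      have hs4 : sg (x i) ^ 4 = 1 := by
        have : sg (x i) ^ 4 = (sg (x i) ^ 2) ^ 2 := by ring
        rw [this, hs2]; norm_num
      calc (P x + sg (x i) * Q x) ^ 4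
          = P x ^ 4 + 4 * P x ^ 3 * (sg (x i) * Q x) + 6 * P x ^ 2 * (sg (x i) ^ 2 * Q x ^ 2)
            + 4 * P x * (sg (x i) ^ 3 * Q x ^ 3) + sg (x i) ^ 4 * Q x ^ 4 := by ring
        _ = _ := by rw [hs2, hs3, hs4]; ring
    rw [h3, h2, mean_add]
    have h4 : mean (fun x : ι → Bool => sg (x i) * (4 * P x ^ 3 * Q x + 4 * P x * Q x ^ 3)) = 0 := by
      apply mean_eq_zero_of_flip (i := i)
      intro x
      rw [hPf, hQf, flip_same, sg_not]; ring
    rw [h4, add_zero, mean_add, mean_add, mean_const_mul]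
    have e1 : mean (fun x => P x ^ 4) ≤ p ^ 2 := ih c
    have e2 : mean (fun x => Q x ^ 4) ≤ q ^ 2 := ih (fun S => c (insert i S))
    have e3 : mean (fun x => P x ^ 2 * Q x ^ 2) ≤ p * q := by
      have hcs := mean_mul_sq_le (fun x => P x ^ 2) (fun x => Q x ^ 2)
      have r1 : (fun x => (P x ^ 2) ^ 2) = fun x => P x ^ 4 := by funext x; ring
      have r2 : (fun x => (Q x ^ 2) ^ 2) = fun x => Q x ^ 4 := by funext x; ring
      rw [r1, r2] at hcs
      have hm0 : 0 ≤ mean (fun x => P x ^ 2 * Q x ^ 2) := mean_nonneg fun x => by positivity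
      have hm4 : 0 ≤ mean (fun x => Q x ^ 4) := mean_nonneg fun x => by positivity
      have : mean (fun x => P x ^ 2 * Q x ^ 2) ^ 2 ≤ (p * q) ^ 2 := by
        calc mean (fun x => P x ^ 2 * Q x ^ 2) ^ 2
            ≤ mean (fun x => P x ^ 4) * mean (fun x => Q x ^ 4) := hcs
          _ ≤ p ^ 2 * q ^ 2 := mul_le_mul e1 e2 hm4 (by positivity)
          _ = (p * q) ^ 2 := by ring
      exact (pow_le_pow_iff_left₀ hm0 (by positivity) two_ne_zero).mp this
    nlinarith [mul_nonneg hp0 hq0, sq_nonneg q]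

/-- Low levels of a `{-1,0,1}`-valued function are small. -/
lemma level_ineq {g : (ι → Bool) → ℝ} (hg : ∀ x, g x = 0 ∨ g x = 1 ∨ g x = -1) :
    (∑ S : Finset ι, ((1:ℝ) / 3) ^ S.card * fc g S ^ 2) ^ 2 ≤ (mean (fun x => g x ^ 2)) ^ 3 := by
  set Q : ℝ := ∑ S : Finset ι, ((1:ℝ) / 3) ^ S.card * fc g S ^ 2 with hQ
  set μ : ℝ := mean (fun x => g x ^ 2) with hμ
  set c : Finset ι → ℝ := fun S => ((1:ℝ) / 3) ^ S.card * fc g S with hc
  set h : (ι → Bool) → ℝ := fun x => ∑ S : Finset ι, c S * chi S x with hh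
  have hQ0 : 0 ≤ Q := sum_nonneg fun S _ => by positivity
  have hμ0 : 0 ≤ μ := mean_nonneg fun x => by positivity
  have hfch : ∀ S, fc h S = c S := fun S => fc_charSum c S
  have h1 : mean (fun x => g x * h x) = Q := by
    rw [plancherel]
    apply sum_congr rfl
    intro S _
    rw [hfch, hc]; ring
  have h2 : mean (fun x => h x ^ 4) ≤ Q ^ 2 := by
    have := bonami (univ : Finset ι) c
    rw [powerset_univ] at this
    refine this.trans (le_of_eq ?_)
    congr 1
    apply sum_congr rfl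
    intro S _
    rw [hc]
    have : (3:ℝ) ^ S.card * ((1:ℝ) / 3) ^ S.card = 1 := by
      rw [← mul_pow]; norm_num
    calc (3:ℝ) ^ S.card * (((1:ℝ) / 3) ^ S.card * fc g S) ^ 2
        = ((3:ℝ) ^ S.card * ((1:ℝ) / 3) ^ S.card) * (((1:ℝ) / 3) ^ S.card * fc g S ^ 2) := by ring
      _ = _ := by rw [this, one_mul]
  -- two Cauchy-Schwarz
  have hg3 : ∀ x, g x * g x ^ 2 = g x := by
    intro x; rcases hg x with h | h | h <;> rw [h] <;> norm_num
  have hg4 : ∀ x, (g x ^ 2) ^ 2 = g x ^ 2 := by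
    intro x; rcases hg x with h | h | h <;> rw [h] <;> norm_num
  set M : ℝ := mean (fun x => g x ^ 2 * h x ^ 2) with hM
  have hM0 : 0 ≤ M := mean_nonneg fun x => by positivity
  have h3 : Q ^ 2 ≤ μ * M := by
    have := mean_mul_sq_le g (fun x => g x ^ 2 * h x)
    have r1 : (fun x => g x * (g x ^ 2 * h x)) = fun x => g x * h x := by
      funext x; rw [← mul_assoc, hg3]
    have r2 : (fun x => (g x ^ 2 * h x) ^ 2) = fun x => g x ^ 2 * h x ^ 2 := by
      funext x; rw [mul_pow, hg4]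
    rw [r1, r2, h1] at this
    exact this
  have h4 : M ^ 2 ≤ μ * Q ^ 2 := by
    have := mean_mul_sq_le (fun x => g x ^ 2) (fun x => h x ^ 2)
    have r1 : (fun x => (g x ^ 2) ^ 2) = fun x => g x ^ 2 := by funext x; rw [hg4]
    have r2 : (fun x => (h x ^ 2) ^ 2) = fun x => h x ^ 4 := by funext x; ring
    rw [r1, r2] at this
    exact this.trans (mul_le_mul_of_nonneg_left h2 hμ0)
  by_cases hQz : Q = 0
  · rw [hQz]
    have h0 : 0 ≤ μ ^ 3 := pow_nonneg hμ0 3
    simpa using h0
  · have hQp : 0 < Q ^ 2 := by positivity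
    have h5 : Q ^ 2 * Q ^ 2 ≤ μ ^ 3 * Q ^ 2 := by
      calc Q ^ 2 * Q ^ 2 ≤ (μ * M) * (μ * M) := mul_le_mul h3 h3 (by positivity) (by positivity)
        _ = μ ^ 2 * M ^ 2 := by ring
        _ ≤ μ ^ 2 * (μ * Q ^ 2) := mul_le_mul_of_nonneg_left h4 (by positivity)
        _ = μ ^ 3 * Q ^ 2 := by ring
    exact le_of_mul_le_mul_right h5 hQp

/-- The influence of a coordinate (for `±1` valued `g` this is the probability that flipping
the coordinate changes the value of `g`). -/
noncomputable def infl (i : ι) (g : (ι → Bool) → ℝ) : ℝ := mean (fun x => (deriv' i g x) ^ 2)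

lemma infl_nonneg (i : ι) (g : (ι → Bool) → ℝ) : 0 ≤ infl i g := mean_nonneg fun x => by positivity

lemma infl_eq (i : ι) (g : (ι → Bool) → ℝ) :
    infl i g = ∑ S : Finset ι, if i ∈ S then fc g S ^ 2 else 0 := by
  unfold infl
  rw [parseval]
  apply sum_congr rfl
  intro S _
  rw [fc_deriv]
  split_ifs <;> simp

lemma sum_infl (g : (ι → Bool) → ℝ) :
    ∑ i, infl i g = ∑ S : Finset ι, (S.card : ℝ) * fc g S ^ 2 := by
  simp only [infl_eq]
  rw [sum_comm]
  apply sum_congr rfl
  intro S _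
  rw [← sum_filter]
  simp

lemma fc_empty (g : (ι → Bool) → ℝ) : fc g ∅ = mean g := by
  unfold fc; simp [chi_empty]

/-- A KKL-type inequality: if all influences of a `±1` valued function are at most `δ ^ 2`
then its variance is small compared to its total influence. -/
lemma kkl {g : (ι → Bool) → ℝ} (hg : ∀ x, g x = 1 ∨ g x = -1) {δ : ℝ} (hδ : 0 ≤ δ)
    (hinf : ∀ i, infl i g ≤ δ ^ 2) {d : ℕ} (hd : 1 ≤ d) :
    1 - (mean g) ^ 2 ≤ (3 ^ d * δ + 1 / d) * ∑ i, infl i g := by
  have hdpos : (0:ℝ) < d := by exact_mod_cast hd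
  have h1 : mean (fun x => g x ^ 2) = 1 := by
    have : (fun x => g x ^ 2) = fun _ => (1:ℝ) := by
      funext x; rcases hg x with h | h <;> rw [h] <;> norm_num
    rw [this, mean_const]
  have h2 : 1 - (mean g) ^ 2 = ∑ S ∈ univ.erase (∅ : Finset ι), fc g S ^ 2 := by
    rw [← h1, parseval, ← fc_empty, ← sum_erase_add univ (fun S => fc g S ^ 2) (mem_univ ∅)]
    ring
  rw [h2]
  have h3 : ∀ S ∈ univ.erase (∅ : Finset ι), fc g S ^ 2
      ≤ 3 ^ d * ∑ i : ι, (if i ∈ S then ((1:ℝ) / 3) ^ S.card * fc g S ^ 2 else 0)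
        + 1 / d * ((S.card : ℝ) * fc g S ^ 2) := by
    intro S hS
    have hSne : S ≠ ∅ := (mem_erase.mp hS).1
    have hcard : 1 ≤ S.card := by
      rw [Nat.one_le_iff_ne_zero, Ne, card_eq_zero]; exact hSne
    have e : ∑ i : ι, (if i ∈ S then ((1:ℝ) / 3) ^ S.card * fc g S ^ 2 else 0)
        = S.card * (((1:ℝ) / 3) ^ S.card * fc g S ^ 2) := by
      rw [← sum_filter]; simp
    rw [e]
    have hcard' : (1:ℝ) ≤ S.card := by exact_mod_cast hcard
    have hsq : 0 ≤ fc g S ^ 2 := sq_nonneg _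
    by_cases hSd : S.card ≤ d
    · have a1 : (1:ℝ) ≤ 3 ^ d * ((1:ℝ) / 3) ^ S.card := by
        have : (3:ℝ) ^ d * ((1:ℝ) / 3) ^ S.card = 3 ^ (d - S.card) := by
          obtain ⟨e, rfl⟩ := Nat.exists_eq_add_of_le hSd
          rw [Nat.add_sub_cancel_left, pow_add, one_div, inv_pow]
          field_simp
        rw [this]
        exact one_le_pow₀ (by norm_num)
      have a2 : fc g S ^ 2 ≤ 3 ^ d * (S.card * (((1:ℝ) / 3) ^ S.card * fc g S ^ 2)) := by
        calc fc g S ^ 2 = 1 * 1 * fc g S ^ 2 := by ring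
          _ ≤ (3 ^ d * ((1:ℝ) / 3) ^ S.card) * S.card * fc g S ^ 2 := by
              apply mul_le_mul_of_nonneg_right _ hsq
              exact mul_le_mul a1 hcard' zero_le_one (by positivity)
          _ = _ := by ring
      have a3 : 0 ≤ 1 / (d:ℝ) * ((S.card : ℝ) * fc g S ^ 2) := by positivity
      linarith
    · push Not at hSd
      have a1 : (1:ℝ) ≤ 1 / d * S.card := by
        rw [one_div, inv_mul_eq_div, one_le_div hdpos]
        exact_mod_cast hSd.le
      have a2 : fc g S ^ 2 ≤ 1 / d * ((S.card : ℝ) * fc g S ^ 2) := by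
        calc fc g S ^ 2 = 1 * fc g S ^ 2 := by ring
          _ ≤ (1 / d * S.card) * fc g S ^ 2 := mul_le_mul_of_nonneg_right a1 hsq
          _ = _ := by ring
      have a3 : 0 ≤ 3 ^ d * ((S.card:ℝ) * (((1:ℝ) / 3) ^ S.card * fc g S ^ 2)) := by positivity
      linarith
  have h4 : ∑ S ∈ univ.erase (∅ : Finset ι), fc g S ^ 2
      ≤ ∑ S : Finset ι, (3 ^ d * ∑ i : ι, (if i ∈ S then ((1:ℝ) / 3) ^ S.card * fc g S ^ 2 else 0)
        + 1 / d * ((S.card : ℝ) * fc g S ^ 2)) := by
    refine (sum_le_sum h3).trans ?_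
    apply sum_le_sum_of_subset_of_nonneg (erase_subset _ _)
    intro S _ _
    apply add_nonneg
    · apply mul_nonneg (by positivity)
      apply sum_nonneg
      intro i _
      split_ifs
      · positivity
      · exact le_refl _
    · positivity
  refine h4.trans ?_
  rw [sum_add_distrib, ← mul_sum, ← mul_sum, ← sum_infl, sum_comm, add_mul]
  apply add_le_add _ (le_refl _)
  rw [mul_assoc]
  apply mul_le_mul_of_nonneg_left _ (by positivity)
  rw [mul_sum]
  apply sum_le_sum
  intro i _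
  -- one coordinate
  have hD : ∀ x, deriv' i g x = 0 ∨ deriv' i g x = 1 ∨ deriv' i g x = -1 := by
    intro x
    unfold deriv'
    rcases hg x with h | h <;> rcases hg (flip i x) with h' | h' <;> rw [h, h'] <;> norm_num
  have hl := level_ineq hD
  have e : ∑ S : Finset ι, ((1:ℝ) / 3) ^ S.card * fc (deriv' i g) S ^ 2
      = ∑ S : Finset ι, (if i ∈ S then ((1:ℝ) / 3) ^ S.card * fc g S ^ 2 else 0) := by
    apply sum_congr rfl
    intro S _
    rw [fc_deriv]
    split_ifs <;> simp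
  rw [e] at hl
  set q : ℝ := ∑ S : Finset ι, (if i ∈ S then ((1:ℝ) / 3) ^ S.card * fc g S ^ 2 else 0) with hq
  change q ≤ δ * infl i g
  have hl' : q ^ 2 ≤ (infl i g) ^ 3 := hl
  have hI0 := infl_nonneg i g
  have : q ^ 2 ≤ (δ * infl i g) ^ 2 := by
    calc q ^ 2 ≤ (infl i g) ^ 3 := hl'
      _ = infl i g * (infl i g) ^ 2 := by ring
      _ ≤ δ ^ 2 * (infl i g) ^ 2 := mul_le_mul_of_nonneg_right (hinf i) (by positivity)
      _ = _ := by ring
  exact abs_le_of_sq_le_sq' this (by positivity) |>.2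

end Vale.Agent.P238
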