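import Vale.Agent.Lib.P238.Pairs

/-!
The lower bound for the `ℓ₁` distortion of the edit distance.
-/

set_option linter.unusedSectionVars false

namespace Vale.Agent.P238

open Finset

lemma ED_nonneg (n : ℕ) (x y : Fin n → Bool) : 0 ≤ ED n x y := by unfold ED; positivity

lemma ED_pos {n : ℕ} {x y : Fin n → Bool} (h : x ≠ y) : 0 < ED n x y := by
  unfold ED
  have : List.ofFn x ≠ List.ofFn y := fun h' => h (List.ofFn_injective h')
  exact_mod_cast editDist_pos this

/-- Any injective map satisfies the two Lipschitz bounds given by the suprema. -/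
lemma dist_bounds {n : ℕ} (f : (Fin n → Bool) → lp (fun _ : ℕ => ℝ) 1)
    (hf : Function.Injective f) :
    let A := ⨆ p : {p : (Fin n → Bool) × (Fin n → Bool) // p.1 ≠ p.2},
      ‖f p.1.1 - f p.1.2‖ / ED n p.1.1 p.1.2
    let B := ⨆ p : {p : (Fin n → Bool) × (Fin n → Bool) // p.1 ≠ p.2},
      ED n p.1.1 p.1.2 / ‖f p.1.1 - f p.1.2‖
    0 ≤ A ∧ 0 ≤ B ∧ (∀ x y, ‖f x - f y‖ ≤ A * ED n x y) ∧
      (∀ x y, ED n x y ≤ B * ‖f x - f y‖) := by
  intro A B
  have hA : 0 ≤ A := Real.iSup_nonneg fun p => div_nonneg (norm_nonneg _) (ED_nonneg _ _ _)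
  have hB : 0 ≤ B := Real.iSup_nonneg fun p => div_nonneg (ED_nonneg _ _ _) (norm_nonneg _)
  refine ⟨hA, hB, ?_, ?_⟩
  · intro x y
    by_cases h : x = y
    · subst h
      simpa using mul_nonneg hA (ED_nonneg n x x)
    · have h1 := le_ciSup (f := fun p : {p : (Fin n → Bool) × (Fin n → Bool) // p.1 ≠ p.2} =>
        ‖f p.1.1 - f p.1.2‖ / ED n p.1.1 p.1.2) (Set.finite_range _).bddAbove ⟨(x, y), h⟩
      exact (div_le_iff₀ (ED_pos h)).mp h1
  · intro x y
    by_cases h : x = y
    · subst h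
      have : ED n x x = 0 := by
        unfold ED
        have : editDist (List.ofFn x) (List.ofFn x) ≤ 0 := editDist_le (EditPath.refl _)
        exact_mod_cast Nat.le_zero.mp this
      rw [this]
      exact mul_nonneg hB (norm_nonneg _)
    · have hne : f x - f y ≠ 0 := sub_ne_zero.mpr fun h' => h (hf h')
      have h1 := le_ciSup (f := fun p : {p : (Fin n → Bool) × (Fin n → Bool) // p.1 ≠ p.2} =>
        ED n p.1.1 p.1.2 / ‖f p.1.1 - f p.1.2‖) (Set.finite_range _).bddAbove ⟨(x, y), h⟩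
      exact (div_le_iff₀ (norm_pos_iff.mpr hne)).mp h1

/-- The quantitative lower bound. -/
lemma distortion_lower {n K d b W : ℕ} (hn : 2 ^ K ≤ n) (hd : 1 ≤ d) (hK : 32 * d + W + b ≤ K)
    (f : (Fin n → Bool) → lp (fun _ : ℕ => ℝ) 1) (hf : Function.Injective f) :
    (W : ℝ) / 256 ≤ distortion (ED n) f * (2 * W / 2 ^ b + 12 * (b + 1) / d) := by
  obtain ⟨hA, hB, h1, h2⟩ := dist_bounds f hf
  set A := ⨆ p : {p : (Fin n → Bool) × (Fin n → Bool) // p.1 ≠ p.2},
      ‖f p.1.1 - f p.1.2‖ / ED n p.1.1 p.1.2 with hAdef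
  set B := ⨆ p : {p : (Fin n → Bool) × (Fin n → Bool) // p.1 ≠ p.2},
      ED n p.1.1 p.1.2 / ‖f p.1.1 - f p.1.2‖ with hBdef
  have hdist : distortion (ED n) f = A * B := rfl
  rw [hdist]
  have hdpos : (0:ℝ) < d := by exact_mod_cast hd
  have hmain := multi_scale_l1 hd hK (fun x => f (pad n x))
  have hpow : ∀ m : ℕ, m ≤ K → (2:ℕ) ^ m ∣ 2 ^ K := fun m hm => pow_dvd_pow 2 hm
  -- lower bound for the left side
  have hleft : (W : ℝ) * 2 ^ K / 256 ≤ B * ∑ j ∈ range W,
      ∑ a ∈ range (2 ^ K / (2 * 2 ^ (32 * d + j))),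
        mean (fun x => ‖f (pad n x)
          - f (pad n (x ∘ rot (2 ^ K) (2 * 2 ^ (32 * d + j)) a (2 ^ (32 * d + j))))‖) := by
    rw [mul_sum]
    have hterm : ∀ j ∈ range W, (2:ℝ) ^ K / 256 ≤ B * ∑ a ∈ range (2 ^ K / (2 * 2 ^ (32 * d + j))),
        mean (fun x => ‖f (pad n x)
          - f (pad n (x ∘ rot (2 ^ K) (2 * 2 ^ (32 * d + j)) a (2 ^ (32 * d + j))))‖) := by
      intro j hj
      rw [mem_range] at hj
      obtain ⟨m, hm⟩ : ∃ m, 32 * d + j = m + 6 := ⟨32 * d + j - 6, by omega⟩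
      have hq : (2:ℕ) ^ (32 * d + j) = 64 * 2 ^ m := by rw [hm, pow_add]; ring
      have hdiv : 2 * (64 * 2 ^ m) ∣ 2 ^ K := by
        have : 2 * (64 * 2 ^ m) = 2 ^ (m + 7) := by rw [pow_add]; ring
        rw [this]; exact hpow _ (by omega)
      rw [mul_sum]
      have hcard : ((2 ^ K / (2 * 2 ^ (32 * d + j)) : ℕ) : ℝ) * (2 ^ m / 2) = 2 ^ K / 256 := by
        have : (2 ^ K / (2 * 2 ^ (32 * d + j)) : ℕ) = 2 ^ (K - (m + 7)) := by
          rw [hq]
          have : 2 * (64 * 2 ^ m) = 2 ^ (m + 7) := by rw [pow_add]; ring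
          rw [this, Nat.pow_div (by omega) (by norm_num)]
        rw [this]
        push_cast
        have hK' : K = (K - (m + 7)) + (m + 7) := by omega
        conv_rhs => rw [hK', pow_add, pow_add]
        ring
      rw [← hcard]
      calc ((2 ^ K / (2 * 2 ^ (32 * d + j)) : ℕ) : ℝ) * (2 ^ m / 2)
          = ∑ _a ∈ range (2 ^ K / (2 * 2 ^ (32 * d + j))), (2:ℝ) ^ m / 2 := by
            rw [sum_const, card_range, nsmul_eq_mul]
        _ ≤ _ := by
            apply sum_le_sum
            intro a ha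
            rw [mem_range, hq] at ha
            have hfar := far_pair (N := 2 ^ K) (n := n) (q := 2 ^ m) (a := a) hn Nat.one_le_two_pow
              hdiv ha
            rw [← mean_const_mul, hq]
            push_cast at hfar
            refine hfar.trans (mean_mono fun x => ?_)
            exact h2 _ _
    calc (W : ℝ) * 2 ^ K / 256 = ∑ _j ∈ range W, (2:ℝ) ^ K / 256 := by
          rw [sum_const, card_range, nsmul_eq_mul]; ring
      _ ≤ _ := sum_le_sum hterm
  -- upper bounds for the terms on the right side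
  have hr1 : ∀ j ∈ range W, (2 * 2 ^ (32 * d + j) : ℝ) *
          ∑ e ∈ range (2 ^ K / (2 * 2 ^ (32 * d + j) * 2 ^ b)),
            mean (fun x => ‖f (pad n x)
              - f (pad n (x ∘ rot (2 ^ K) (2 * 2 ^ (32 * d + j) * 2 ^ b) e 1))‖)
      ≤ 2 ^ K / 2 ^ b * (2 * A) := by
    intro j hj
    rw [mem_range] at hj
    have hM : 2 * 2 ^ (32 * d + j) * 2 ^ b = 2 ^ (32 * d + j + 1 + b) := by
      rw [pow_add _ _ b, pow_succ]; ring
    have hdiv : 2 * 2 ^ (32 * d + j) * 2 ^ b ∣ 2 ^ K := by rw [hM]; exact hpow _ (by omega)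
    have hcard : (2 * 2 ^ (32 * d + j) : ℝ)
        * ((2 ^ K / (2 * 2 ^ (32 * d + j) * 2 ^ b) : ℕ) : ℝ) = 2 ^ K / 2 ^ b := by
      have : (2 ^ K / (2 * 2 ^ (32 * d + j) * 2 ^ b) : ℕ) = 2 ^ (K - (32 * d + j + 1 + b)) := by
        rw [hM, Nat.pow_div (by omega) (by norm_num)]
      rw [this]
      push_cast
      have hK' : K = (K - (32 * d + j + 1 + b)) + (32 * d + j + 1 + b) := by omega
      conv_rhs => rw [hK', pow_add, pow_add _ _ b, pow_succ]
      field_simp
    rw [← hcard, mul_assoc (2 * 2 ^ (32 * d + j) : ℝ)]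
    apply mul_le_mul_of_nonneg_left _ (by positivity)
    calc _ ≤ ∑ _e ∈ range (2 ^ K / (2 * 2 ^ (32 * d + j) * 2 ^ b)), 2 * A := by
          apply sum_le_sum
          intro e he
          rw [mem_range] at he
          rw [← mean_const (X := Fin (2 ^ K) → Bool) (2 * A)]
          apply mean_mono
          intro x
          have := ED_rot hn (M := 2 * 2 ^ (32 * d + j) * 2 ^ b) (by positivity) hdiv x he
          calc _ ≤ A * ED n (pad n x) (pad n (x ∘ rot (2 ^ K) (2 * 2 ^ (32 * d + j) * 2 ^ b) e 1)) :=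
                h1 _ _
            _ ≤ A * 2 := mul_le_mul_of_nonneg_left this hA
            _ = 2 * A := by ring
      _ = _ := by rw [sum_const, card_range, nsmul_eq_mul]
  have hr2 : ∑ i : Fin (2 ^ K), mean (fun x => ‖f (pad n x) - f (pad n (flip i x))‖) ≤ 2 ^ K * A := by
    calc _ ≤ ∑ _i : Fin (2 ^ K), A := by
          apply sum_le_sum
          intro i _
          rw [← mean_const (X := Fin (2 ^ K) → Bool) A]
          apply mean_mono
          intro x
          calc _ ≤ A * ED n (pad n x) (pad n (flip i x)) := h1 _ _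
            _ ≤ A * 1 := mul_le_mul_of_nonneg_left (ED_flip hn x i) hA
            _ = A := by ring
      _ = _ := by
          rw [sum_const, card_univ, Fintype.card_fin, nsmul_eq_mul]
          push_cast; ring
  have hr3 : (2:ℝ) ^ (32 * d) * ∑ a ∈ range (2 ^ K / 2 ^ (32 * d)),
              mean (fun x => ‖f (pad n x) - f (pad n (x ∘ rot (2 ^ K) (2 ^ (32 * d)) a 1))‖)
      ≤ 2 ^ K * (2 * A) := by
    have hdiv : 2 ^ (32 * d) ∣ 2 ^ K := hpow _ (by omega)
    have hcard : (2 ^ (32 * d) : ℝ) * ((2 ^ K / 2 ^ (32 * d) : ℕ) : ℝ) = 2 ^ K := by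
      have : (2 ^ K / 2 ^ (32 * d) : ℕ) = 2 ^ (K - 32 * d) := by
        rw [Nat.pow_div (by omega) (by norm_num)]
      rw [this]
      push_cast
      rw [← pow_add]
      congr 1; omega
    rw [← hcard, mul_assoc]
    apply mul_le_mul_of_nonneg_left _ (by positivity)
    calc _ ≤ ∑ _e ∈ range (2 ^ K / 2 ^ (32 * d)), 2 * A := by
          apply sum_le_sum
          intro e he
          rw [mem_range] at he
          rw [← mean_const (X := Fin (2 ^ K) → Bool) (2 * A)]
          apply mean_mono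
          intro x
          have := ED_rot hn (M := 2 ^ (32 * d)) (by positivity) hdiv x he
          calc _ ≤ A * ED n (pad n x) (pad n (x ∘ rot (2 ^ K) (2 ^ (32 * d)) e 1)) := h1 _ _
            _ ≤ A * 2 := mul_le_mul_of_nonneg_left this hA
            _ = 2 * A := by ring
      _ = _ := by rw [sum_const, card_range, nsmul_eq_mul]
  have hright : ∑ j ∈ range W, (2 * 2 ^ (32 * d + j) : ℝ) *
          ∑ e ∈ range (2 ^ K / (2 * 2 ^ (32 * d + j) * 2 ^ b)),
            mean (fun x => ‖f (pad n x)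
              - f (pad n (x ∘ rot (2 ^ K) (2 * 2 ^ (32 * d + j) * 2 ^ b) e 1))‖)
        + 2 * (b + 1) * (2 / d) * (∑ i : Fin (2 ^ K), mean (fun x => ‖f (pad n x) - f (pad n (flip i x))‖)
          + 2 ^ (32 * d) * ∑ a ∈ range (2 ^ K / 2 ^ (32 * d)),
              mean (fun x => ‖f (pad n x) - f (pad n (x ∘ rot (2 ^ K) (2 ^ (32 * d)) a 1))‖))
      ≤ 2 ^ K * A * (2 * W / 2 ^ b + 12 * (b + 1) / d) := by
    have s1 := sum_le_sum hr1
    rw [sum_const, card_range, nsmul_eq_mul] at s1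
    have s2 : 2 * ((b:ℝ) + 1) * (2 / d) * (∑ i : Fin (2 ^ K), mean (fun x => ‖f (pad n x) - f (pad n (flip i x))‖)
          + 2 ^ (32 * d) * ∑ a ∈ range (2 ^ K / 2 ^ (32 * d)),
              mean (fun x => ‖f (pad n x) - f (pad n (x ∘ rot (2 ^ K) (2 ^ (32 * d)) a 1))‖))
        ≤ 2 * (b + 1) * (2 / d) * (2 ^ K * A + 2 ^ K * (2 * A)) :=
      mul_le_mul_of_nonneg_left (add_le_add hr2 hr3) (by positivity)
    calc _ ≤ (W : ℝ) * (2 ^ K / 2 ^ b * (2 * A))
          + 2 * (b + 1) * (2 / d) * (2 ^ K * A + 2 ^ K * (2 * A)) := add_le_add s1 s2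
      _ = _ := by ring
  have hfinal := hleft.trans (mul_le_mul_of_nonneg_left (hmain.trans hright) hB)
  have h2K : (0:ℝ) < 2 ^ K := by positivity
  have e1 : B * (2 ^ K * A * (2 * W / 2 ^ b + 12 * (b + 1) / d))
      = (A * B * (2 * W / 2 ^ b + 12 * (b + 1) / d)) * 2 ^ K := by ring
  have e2 : (W : ℝ) * 2 ^ K / 256 = (W / 256) * 2 ^ K := by ring
  rw [e1, e2] at hfinal
  exact le_of_mul_le_mul_right hfinal h2K

/-- Choice of the parameters: a lower bound in terms of `K`. -/
lemma distortion_lower_K {n K : ℕ} (hn : 2 ^ K ≤ n) (hK : 256 ≤ K)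
    (f : (Fin n → Bool) → lp (fun _ : ℕ => ℝ) 1) (hf : Function.Injective f) :
    (K : ℝ) ^ 2 / (50000000 * Real.log K) ≤ distortion (ED n) f := by
  set d := K / 128 with hd
  set b := 2 * (Nat.log 2 K + 1) with hb
  set W := K / 4 with hW
  have hKpos : (0:ℝ) < K := by
    have : 0 < K := by omega
    exact_mod_cast this
  have hd1 : 1 ≤ d := by omega
  -- size of b
  have hlog : Nat.log 2 K ≤ K / 8 - 1 := by
    have h1 : Nat.log 2 K < K / 8 := by
      apply Nat.log_lt_of_lt_pow (by omega)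
      have : ∀ m : ℕ, 32 ≤ m → 8 * m + 8 < 2 ^ m := by
        intro m hm
        induction m, hm using Nat.le_induction with
        | base => norm_num
        | succ m hm ih => rw [pow_succ]; omega
      have h2 := this (K / 8) (by omega)
      omega
    omega
  have hparam : 32 * d + W + b ≤ K := by omega
  have hmain := distortion_lower hn hd1 hparam f hf
  have hdist0 : 0 ≤ distortion (ED n) f := by
    obtain ⟨hA, hB, _, _⟩ := dist_bounds f hf
    exact mul_nonneg hA hB
  -- numerical estimates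
  have hlogK : (1:ℝ) ≤ Real.log K := by
    rw [Real.le_log_iff_exp_le hKpos]
    have h1 := Real.exp_one_lt_d9
    have h2 : (256:ℝ) ≤ K := by exact_mod_cast hK
    linarith
  have hlog2 : (Nat.log 2 K : ℝ) ≤ 2 * Real.log K := by
    have h1 : (2:ℝ) ^ (Nat.log 2 K) ≤ K := by
      have := Nat.pow_log_le_self 2 (x := K) (by omega)
      exact_mod_cast this
    have h2 := Real.log_le_log (by positivity) h1
    rw [Real.log_pow] at h2
    have h3 := Real.log_two_gt_d9
    have h4 : (0:ℝ) ≤ Nat.log 2 K := by positivity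
    nlinarith
  have hbR : (b : ℝ) + 1 ≤ 7 * Real.log K := by
    have : (b : ℝ) = 2 * ((Nat.log 2 K : ℝ) + 1) := by rw [hb]; push_cast; ring
    rw [this]; linarith
  have hdR : (K : ℝ) / 256 ≤ d := by
    have h1 : K ≤ 256 * d := by omega
    have h2 : (K : ℝ) ≤ 256 * d := by exact_mod_cast h1
    linarith
  have hdpos : (0:ℝ) < d := by exact_mod_cast hd1
  have hWle : (W : ℝ) ≤ K / 4 := by
    have h1 : 4 * W ≤ K := by omega
    have h2 : 4 * (W : ℝ) ≤ K := by exact_mod_cast h1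
    linarith
  have hWge : (K : ℝ) / 8 ≤ W := by
    have h1 : K ≤ 8 * W := by omega
    have h2 : (K : ℝ) ≤ 8 * W := by exact_mod_cast h1
    linarith
  have h2b : (K : ℝ) ^ 2 ≤ 2 ^ b := by
    have h1 : K < 2 ^ (Nat.log 2 K + 1) := Nat.lt_pow_succ_log_self (by norm_num) K
    have h2 : (K : ℝ) ≤ 2 ^ (Nat.log 2 K + 1) := by exact_mod_cast h1.le
    calc (K : ℝ) ^ 2 ≤ (2 ^ (Nat.log 2 K + 1)) ^ 2 := pow_le_pow_left₀ hKpos.le h2 2
      _ = 2 ^ b := by rw [← pow_mul, hb]; congr 1; ring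
  have e1 : 2 * (W : ℝ) / 2 ^ b ≤ Real.log K / K := by
    rw [div_le_div_iff₀ (by positivity) hKpos]
    calc 2 * (W : ℝ) * K ≤ 2 * (K / 4) * K := by
          apply mul_le_mul_of_nonneg_right _ hKpos.le
          linarith
      _ ≤ 1 * K ^ 2 := by nlinarith
      _ ≤ Real.log K * 2 ^ b := mul_le_mul hlogK h2b (by positivity) (by linarith)
  have e2 : 12 * ((b : ℝ) + 1) / d ≤ 21504 * Real.log K / K := by
    rw [div_le_div_iff₀ hdpos hKpos]
    calc 12 * ((b : ℝ) + 1) * K ≤ 12 * (7 * Real.log K) * K := by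
          apply mul_le_mul_of_nonneg_right _ hKpos.le
          linarith
      _ = 84 * Real.log K * K := by ring
      _ ≤ 84 * Real.log K * (256 * d) := by
          apply mul_le_mul_of_nonneg_left _ (by linarith)
          linarith
      _ = _ := by ring
  have e3 : 2 * (W : ℝ) / 2 ^ b + 12 * (b + 1) / d ≤ 21505 * Real.log K / K := by
    calc _ ≤ Real.log K / K + 21504 * Real.log K / K := add_le_add e1 e2
      _ = _ := by ring
  have e4 : (K : ℝ) / 2048 ≤ distortion (ED n) f * (21505 * Real.log K / K) := by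
    calc (K : ℝ) / 2048 ≤ W / 256 := by linarith
      _ ≤ _ := hmain
      _ ≤ _ := mul_le_mul_of_nonneg_left e3 hdist0
  rw [div_le_iff₀ (by positivity)]
  have e5 : (K : ℝ) / 2048 * K ≤ distortion (ED n) f * (21505 * Real.log K) := by
    calc (K : ℝ) / 2048 * K ≤ distortion (ED n) f * (21505 * Real.log K / K) * K :=
          mul_le_mul_of_nonneg_right e4 hKpos.le
      _ = _ := by field_simp
  have e6 : 0 ≤ distortion (ED n) f * Real.log K := mul_nonneg hdist0 (by linarith)
  nlinarith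

lemma exists_injective (n : ℕ) :
    ∃ f : (Fin n → Bool) → lp (fun _ : ℕ => ℝ) 1, Function.Injective f := by
  classical
  refine ⟨fun x => lp.single 1 0 ((Fintype.equivFin (Fin n → Bool) x : ℕ) : ℝ), ?_⟩
  intro x y hxy
  have h1 := congrArg (fun v : lp (fun _ : ℕ => ℝ) 1 => v 0) hxy
  simp only [lp.single_apply_self] at h1
  have h2 : (Fintype.equivFin (Fin n → Bool) x : ℕ) = (Fintype.equivFin (Fin n → Bool) y : ℕ) := by
    exact_mod_cast h1
  exact (Fintype.equivFin (Fin n → Bool)).injective (Fin.ext h2)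

/-- The lower bound `c₁({0,1}ⁿ, ED) ≥ c (log n)² / log log n`. -/
theorem cOne_lower : ∃ c : ℝ, 0 < c ∧ ∃ n₀ : ℕ, ∀ n : ℕ, n₀ ≤ n →
    c * Real.log n ^ 2 / Real.log (Real.log n) ≤ cOne (ED n) := by
  refine ⟨1 / 100000000, by norm_num, 2 ^ 256, ?_⟩
  intro n hn
  have hn0 : n ≠ 0 := by
    rintro rfl
    norm_num at hn
  have hnpos : (0:ℝ) < n := by exact_mod_cast Nat.pos_of_ne_zero hn0
  set K := Nat.log 2 n with hKdef
  have hK : 256 ≤ K := by
    rw [hKdef]
    exact (Nat.le_log_iff_pow_le (by norm_num) hn0).mpr hn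
  have hKn : 2 ^ K ≤ n := Nat.pow_log_le_self 2 hn0
  have hnK : n < 2 ^ (K + 1) := Nat.lt_pow_succ_log_self (by norm_num) n
  have hKpos : (0:ℝ) < K := by
    have : 0 < K := by omega
    exact_mod_cast this
  have hK256 : (256:ℝ) ≤ K := by exact_mod_cast hK
  -- log n ≤ K ≤ 2 log n
  have hl1 : Real.log n ≤ K := by
    have h1 : (n:ℝ) ≤ 2 ^ (K + 1) := by exact_mod_cast hnK.le
    have h2 := Real.log_le_log hnpos h1
    rw [Real.log_pow] at h2
    push_cast at h2
    have h3 := Real.log_two_lt_d9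
    nlinarith
  have hl2 : (K:ℝ) ≤ 2 * Real.log n := by
    have h1 : (2:ℝ) ^ K ≤ n := by exact_mod_cast hKn
    have h2 := Real.log_le_log (by positivity) h1
    rw [Real.log_pow] at h2
    have h3 := Real.log_two_gt_d9
    nlinarith
  have hlogn : (128:ℝ) ≤ Real.log n := by linarith
  have hll : (1:ℝ) ≤ Real.log (Real.log n) := by
    rw [Real.le_log_iff_exp_le (by linarith)]
    have h1 := Real.exp_one_lt_d9
    linarith
  have hlK : Real.log K ≤ 2 * Real.log (Real.log n) := by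
    have h1 := Real.log_le_log hKpos hl2
    rw [Real.log_mul (by norm_num) (by linarith)] at h1
    have h2 := Real.log_two_lt_d9
    linarith
  have hlKpos : (0:ℝ) < Real.log K := Real.log_pos (by linarith)
  apply le_csInf
  · obtain ⟨f, hf⟩ := exists_injective n
    exact ⟨_, f, hf, rfl⟩
  · rintro D ⟨f, hf, rfl⟩
    have h1 := distortion_lower_K hKn hK f hf
    refine le_trans ?_ h1
    rw [div_le_div_iff₀ (by linarith) (by positivity)]
    have h2 : Real.log n ^ 2 ≤ (K:ℝ) ^ 2 := pow_le_pow_left₀ (by linarith) hl1 2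
    have h3 : (0:ℝ) ≤ Real.log n ^ 2 := by positivity
    calc 1 / 100000000 * Real.log n ^ 2 * (50000000 * Real.log K)
        = 1 / 2 * (Real.log n ^ 2 * Real.log K) := by ring
      _ ≤ 1 / 2 * ((K:ℝ) ^ 2 * (2 * Real.log (Real.log n))) := by
          apply mul_le_mul_of_nonneg_left _ (by norm_num)
          exact mul_le_mul h2 hlK hlKpos.le (by positivity)
      _ = _ := by ring

end Vale.Agent.P238
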