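import Vale.Agent.Lib.P238.Scales
import Vale.Agent.Lib.P238.Cut

/-!
Summation of the one-scale inequality over all scales.
-/

set_option linter.unusedSectionVars false

namespace Vale.Agent.P238

open Finset

/-- The `a`-th block of length `s`. -/
def blk (N s a : ℕ) : Finset (Fin N) := univ.filter (fun i : Fin N => (i : ℕ) / s = a)

lemma mem_blk {N s a : ℕ} {i : Fin N} : i ∈ blk N s a ↔ (i : ℕ) / s = a := by simp [blk]

lemma hit_lt {N s : ℕ} (hs : 0 < s) (hN : s ∣ N) (i : Fin N) : (i : ℕ) / s < N / s := by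
  obtain ⟨t, ht⟩ := hN
  have hi := i.2
  rw [Nat.div_lt_iff_lt_mul hs]
  have : N / s * s = N := by rw [ht, Nat.mul_div_cancel_left _ hs]; ring
  rw [this]; exact hi

lemma sum_blockVar {N s : ℕ} (hs : 0 < s) (hN : s ∣ N) (g : (Fin N → Bool) → ℝ) :
    ∑ a ∈ range (N / s), blockVar (blk N s a) g
      = ∑ S : Finset (Fin N), ((hit s S).card : ℝ) * fc g S ^ 2 := by
  unfold blockVar
  rw [sum_comm]
  apply sum_congr rfl
  intro S _
  have h1 : ∀ a ∈ range (N / s), (if Disjoint S (blk N s a) then 0 else fc g S ^ 2)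
      = if a ∈ hit s S then fc g S ^ 2 else 0 := by
    intro a _
    by_cases h : a ∈ hit s S
    · obtain ⟨i, hi, hia⟩ := mem_image.mp h
      rw [if_pos h, if_neg]
      intro hd
      exact (disjoint_left.mp hd hi) (mem_blk.mpr hia)
    · rw [if_neg h, if_pos]
      rw [disjoint_left]
      intro i hi hib
      exact h (mem_image.mpr ⟨i, hi, mem_blk.mp hib⟩)
  rw [sum_congr rfl h1, ← sum_filter, sum_const, nsmul_eq_mul]
  congr 2
  congr 1
  ext a
  simp only [mem_filter, mem_range]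
  constructor
  · exact fun h => h.2
  · intro h
    refine ⟨?_, h⟩
    obtain ⟨i, _, rfl⟩ := mem_image.mp h
    exact hit_lt hs hN i

lemma hit_card_anti {N : ℕ} (s q : ℕ) (S : Finset (Fin N)) :
    (hit (s * q) S).card ≤ (hit s S).card := by
  have : hit (s * q) S = (hit s S).image (fun m => m / q) := by
    rw [hit, hit, image_image]
    apply image_congr
    intro i _
    simp only [Function.comp_apply]
    rw [Nat.div_div_eq_div_mul]
  rw [this]
  exact card_image_le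

/-- Telescoping for nonincreasing nonnegative sequences. -/
lemma telescope (u : ℕ → ℝ) (hanti : ∀ j, u (j + 1) ≤ u j) (h0 : ∀ j, 0 ≤ u j) (W c : ℕ) :
    ∑ j ∈ range W, (u j - u (j + c)) ≤ c * u 0 := by
  have hmono : ∀ j, u j ≤ u 0 := by
    intro j
    induction j with
    | zero => exact le_refl _
    | succ j ih => exact (hanti j).trans ih
  induction c with
  | zero => simp
  | succ c ih =>
    have h1 : ∑ j ∈ range W, (u j - u (j + (c + 1)))
        = ∑ j ∈ range W, (u j - u (j + c)) + ∑ j ∈ range W, (u (j + c) - u (j + 1 + c)) := by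
      rw [← sum_add_distrib]
      apply sum_congr rfl
      intro j _
      rw [show j + (c + 1) = j + 1 + c by ring]
      ring
    have h2 : ∑ j ∈ range W, (u (j + c) - u (j + 1 + c)) = u c - u (W + c) := by
      have := sum_range_sub' (fun j => u (j + c)) W
      rw [zero_add] at this
      exact this
    rw [h1, h2]
    push_cast
    have := h0 (W + c)
    have := hmono c
    linarith

/-- The multi-scale inequality for `±1` valued functions. -/
lemma multi_scale {K d b W : ℕ} (hd : 1 ≤ d) (hK : 32 * d + W + b ≤ K)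
    {g : (Fin (2 ^ K) → Bool) → ℝ} (hg : ∀ x, g x = 1 ∨ g x = -1) :
    ∑ j ∈ range W, ∑ a ∈ range (2 ^ K / (2 * 2 ^ (32 * d + j))),
        dst g (rot (2 ^ K) (2 * 2 ^ (32 * d + j)) a (2 ^ (32 * d + j)))
      ≤ ∑ j ∈ range W, (2 * 2 ^ (32 * d + j) : ℝ) *
          ∑ e ∈ range (2 ^ K / (2 * 2 ^ (32 * d + j) * 2 ^ b)),
            dst g (rot (2 ^ K) (2 * 2 ^ (32 * d + j) * 2 ^ b) e 1)
        + 2 * (b + 1) * (2 / d) * (∑ i, infl i g
          + 2 ^ (32 * d) * ∑ a ∈ range (2 ^ K / 2 ^ (32 * d)),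
              dst g (rot (2 ^ K) (2 ^ (32 * d)) a 1)) := by
  set E : ℕ → ℝ := fun j => ∑ S : Finset (Fin (2 ^ K)), ((hit (2 ^ (32 * d + j)) S).card : ℝ) * fc g S ^ 2
    with hE
  have hE0 : ∀ j, 0 ≤ E j := fun j => sum_nonneg fun S _ => by positivity
  have hEanti : ∀ j, E (j + 1) ≤ E j := by
    intro j
    apply sum_le_sum
    intro S _
    apply mul_le_mul_of_nonneg_right _ (sq_nonneg _)
    have := hit_card_anti (2 ^ (32 * d + j)) 2 S
    rw [← pow_succ] at this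
    exact_mod_cast this
  have hone : ∀ j ∈ range W, ∑ a ∈ range (2 ^ K / (2 * 2 ^ (32 * d + j))),
        dst g (rot (2 ^ K) (2 * 2 ^ (32 * d + j)) a (2 ^ (32 * d + j)))
      ≤ (2 * 2 ^ (32 * d + j) : ℝ) *
          ∑ e ∈ range (2 ^ K / (2 * 2 ^ (32 * d + j) * 2 ^ b)),
            dst g (rot (2 ^ K) (2 * 2 ^ (32 * d + j) * 2 ^ b) e 1)
        + 2 * (E j - E (j + (b + 1))) := by
    intro j hj
    rw [mem_range] at hj
    have hdiv : 2 * 2 ^ (32 * d + j) * 2 ^ b ∣ 2 ^ K := by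
      have : 2 * 2 ^ (32 * d + j) * 2 ^ b = 2 ^ (32 * d + j + 1 + b) := by
        rw [pow_add _ _ b, pow_succ]; ring
      rw [this]
      exact pow_dvd_pow 2 (by omega)
    have h1 := one_scale (h := 2 ^ (32 * d + j)) (β := 2 ^ b) (by positivity) (by positivity) hdiv hg
    refine h1.trans (le_of_eq ?_)
    have e1 : 2 * 2 ^ (32 * d + j) * 2 ^ b = 2 ^ (32 * d + (j + (b + 1))) := by
      rw [show 32 * d + (j + (b + 1)) = (32 * d + j) + 1 + b by ring, pow_add _ _ b, pow_succ]; ring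
    congr 1
    · push_cast; rfl
    · rw [hE]; simp only [e1]
  refine (sum_le_sum hone).trans ?_
  rw [sum_add_distrib]
  apply add_le_add (le_refl _)
  rw [← mul_sum]
  have htel := telescope E hEanti hE0 W (b + 1)
  have hbase : E 0 ≤ 2 / d * (∑ i, infl i g
          + 2 ^ (32 * d) * ∑ a ∈ range (2 ^ K / 2 ^ (32 * d)),
              dst g (rot (2 ^ K) (2 ^ (32 * d)) a 1)) := by
    have hs : 0 < 2 ^ (32 * d) := by positivity
    have hdiv : 2 ^ (32 * d) ∣ 2 ^ K := pow_dvd_pow 2 (by omega)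
    have h1 : E 0 = ∑ a ∈ range (2 ^ K / 2 ^ (32 * d)), blockVar (blk (2 ^ K) (2 ^ (32 * d)) a) g := by
      rw [sum_blockVar hs hdiv]
      rfl
    rw [h1]
    have h2 : ∀ a ∈ range (2 ^ K / 2 ^ (32 * d)), blockVar (blk (2 ^ K) (2 ^ (32 * d)) a) g
        ≤ 2 / d * (∑ i ∈ blk (2 ^ K) (2 ^ (32 * d)) a, infl i g
          + 2 ^ (32 * d) * dst g (rot (2 ^ K) (2 ^ (32 * d)) a 1)) := by
      intro a _
      apply block_kkl hg _ _ _ hd
      · intro i hi
        apply rot_injOn hs hdiv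
        · exact Nat.pow_le_pow_right (by norm_num) (by omega)
        · exact mem_blk.mp hi
      · intro i hi
        apply rot_fix hs hdiv
        intro h
        exact hi (mem_blk.mpr h)
    refine (sum_le_sum h2).trans (le_of_eq ?_)
    rw [← mul_sum, sum_add_distrib, ← mul_sum]
    congr 2
    have := sum_fiberwise_of_maps_to (s := (univ : Finset (Fin (2 ^ K))))
      (t := range (2 ^ K / 2 ^ (32 * d))) (g := fun i : Fin (2 ^ K) => (i : ℕ) / 2 ^ (32 * d))
      (fun i _ => mem_range.mpr (hit_lt hs hdiv i)) (fun i => infl i g)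
    exact this
  calc 2 * ∑ j ∈ range W, (E j - E (j + (b + 1))) ≤ 2 * (((b + 1 : ℕ) : ℝ) * E 0) := by linarith
    _ = 2 * (b + 1) * E 0 := by push_cast; ring
    _ ≤ 2 * (b + 1) * (2 / d * (∑ i, infl i g
          + 2 ^ (32 * d) * ∑ a ∈ range (2 ^ K / 2 ^ (32 * d)),
              dst g (rot (2 ^ K) (2 ^ (32 * d)) a 1))) :=
        mul_le_mul_of_nonneg_left hbase (by positivity)
    _ = _ := by ring

/-- The multi-scale inequality for maps into `ℓ₁`. -/
theorem multi_scale_l1 {K d b W : ℕ} (hd : 1 ≤ d) (hK : 32 * d + W + b ≤ K)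
    (G : (Fin (2 ^ K) → Bool) → lp (fun _ : ℕ => ℝ) 1) :
    ∑ j ∈ range W, ∑ a ∈ range (2 ^ K / (2 * 2 ^ (32 * d + j))),
        mean (fun x => ‖G x - G (x ∘ rot (2 ^ K) (2 * 2 ^ (32 * d + j)) a (2 ^ (32 * d + j)))‖)
      ≤ ∑ j ∈ range W, (2 * 2 ^ (32 * d + j) : ℝ) *
          ∑ e ∈ range (2 ^ K / (2 * 2 ^ (32 * d + j) * 2 ^ b)),
            mean (fun x => ‖G x - G (x ∘ rot (2 ^ K) (2 * 2 ^ (32 * d + j) * 2 ^ b) e 1)‖)
        + 2 * (b + 1) * (2 / d) * (∑ i, mean (fun x => ‖G x - G (flip i x)‖)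
          + 2 ^ (32 * d) * ∑ a ∈ range (2 ^ K / 2 ^ (32 * d)),
              mean (fun x => ‖G x - G (x ∘ rot (2 ^ K) (2 ^ (32 * d)) a 1)‖)) := by
  classical
  -- the mean of `φ (x, T x)` as a linear functional of `φ`
  let m : ((Fin (2 ^ K) → Bool) → (Fin (2 ^ K) → Bool)) →
      ((((Fin (2 ^ K) → Bool) × (Fin (2 ^ K) → Bool)) → ℝ) →ₗ[ℝ] ℝ) := fun T =>
    { toFun := fun φ => mean (fun x => φ (x, T x))
      map_add' := fun φ ψ => mean_add _ _
      map_smul' := fun c φ => mean_const_mul c _ }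
  have hm : ∀ T φ, m T φ = mean (fun x => φ (x, T x)) := fun T φ => rfl
  let L : (((Fin (2 ^ K) → Bool) × (Fin (2 ^ K) → Bool)) → ℝ) →ₗ[ℝ] ℝ :=
    (∑ j ∈ range W, (2 * 2 ^ (32 * d + j) : ℝ) •
          ∑ e ∈ range (2 ^ K / (2 * 2 ^ (32 * d + j) * 2 ^ b)),
            m (fun x => x ∘ rot (2 ^ K) (2 * 2 ^ (32 * d + j) * 2 ^ b) e 1)
        + (2 * (b + 1) * (2 / d) : ℝ) • (∑ i, m (fun x => flip i x)
          + (2 ^ (32 * d) : ℝ) • ∑ a ∈ range (2 ^ K / 2 ^ (32 * d)),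
              m (fun x => x ∘ rot (2 ^ K) (2 ^ (32 * d)) a 1)))
    - ∑ j ∈ range W, ∑ a ∈ range (2 ^ K / (2 * 2 ^ (32 * d + j))),
        m (fun x => x ∘ rot (2 ^ K) (2 * 2 ^ (32 * d + j)) a (2 ^ (32 * d + j)))
  have hL : ∀ φ, L φ = (∑ j ∈ range W, (2 * 2 ^ (32 * d + j) : ℝ) *
          ∑ e ∈ range (2 ^ K / (2 * 2 ^ (32 * d + j) * 2 ^ b)),
            mean (fun x => φ (x, x ∘ rot (2 ^ K) (2 * 2 ^ (32 * d + j) * 2 ^ b) e 1))
        + (2 * (b + 1) * (2 / d) : ℝ) * (∑ i, mean (fun x => φ (x, flip i x))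
          + (2 ^ (32 * d) : ℝ) * ∑ a ∈ range (2 ^ K / 2 ^ (32 * d)),
              mean (fun x => φ (x, x ∘ rot (2 ^ K) (2 ^ (32 * d)) a 1))))
    - ∑ j ∈ range W, ∑ a ∈ range (2 ^ K / (2 * 2 ^ (32 * d + j))),
        mean (fun x => φ (x, x ∘ rot (2 ^ K) (2 * 2 ^ (32 * d + j)) a (2 ^ (32 * d + j)))) := by
    intro φ
    simp only [L, LinearMap.sub_apply, LinearMap.add_apply, LinearMap.smul_apply,
      LinearMap.sum_apply, smul_eq_mul, hm]
  have hcut : ∀ g : (Fin (2 ^ K) → Bool) → ℝ, (∀ x, g x = 1 ∨ g x = -1) →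
      0 ≤ L (fun p => ((g p.1 - g p.2) / 2) ^ 2) := by
    intro g hg
    rw [hL]
    have := multi_scale hd hK hg
    unfold dst infl deriv' at this
    linarith
  have h := cut_to_l1 L hcut G
  rw [hL] at h
  linarith

end Vale.Agent.P238
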