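import Vale.Agent.Lib.P238.Edit
import Vale.Agent.Lib.P238.Multi

/-!
The test pairs: edit distances of flips, rotations and swaps of halves of blocks.
-/

set_option linter.unusedSectionVars false

namespace Vale.Agent.P238

open Finset

/-- A word extended by zeros. -/
def ext0 {N : ℕ} (x : Fin N → Bool) (i : ℕ) : Bool := if h : i < N then x ⟨i, h⟩ else false

/-- The word of length `n` obtained by appending zeros. -/
def pad {N : ℕ} (n : ℕ) (x : Fin N → Bool) : Fin n → Bool := fun i => ext0 x i

lemma ofFn_pad {N : ℕ} (n : ℕ) (x : Fin N → Bool) : List.ofFn (pad n x) = word n (ext0 x) := by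
  apply List.ext_getElem
  · simp [word]
  · intro i h1 h2
    simp [word, pad]

lemma ED_pad {N : ℕ} (n : ℕ) (x y : Fin N → Bool) :
    ED n (pad n x) (pad n y) = (editDist (word n (ext0 x)) (word n (ext0 y)) : ℝ) := by
  unfold ED
  rw [ofFn_pad, ofFn_pad]

lemma ED_flip {N n : ℕ} (hn : N ≤ n) (x : Fin N → Bool) (i : Fin N) :
    ED n (pad n x) (pad n (flip i x)) ≤ 1 := by
  rw [ED_pad]
  have : editDist (word n (ext0 x)) (word n (ext0 (flip i x))) ≤ 1 := by
    apply editDist_subst (i := (i : ℕ)) (by omega)
    intro j hj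
    unfold ext0
    split_ifs with h
    · rw [flip_ne]
      intro hcon
      exact hj (by rw [← hcon])
    · rfl
  exact_mod_cast this

lemma ext0_comp {N : ℕ} (x : Fin N → Bool) {M : ℕ} (hM : 0 < M) (hN : M ∣ N) (d r i : ℕ)
    (hi : i < N) : ext0 (x ∘ rot N M d r) i = ext0 x (rotNat M d r i) := by
  unfold ext0
  rw [dif_pos hi, dif_pos (rotNat_lt hM hN hi)]
  simp only [Function.comp_apply]
  congr 1
  apply Fin.ext
  rw [rot_val hM hN]

lemma ext0_ge {N : ℕ} (x : Fin N → Bool) {i : ℕ} (hi : N ≤ i) : ext0 x i = false := by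
  unfold ext0
  rw [dif_neg (by omega)]

lemma div_block {M e j : ℕ} (hj : j < M) : (e * M + j) / M = e ∧ (e * M + j) % M = j := by
  have hM : 0 < M := by omega
  constructor
  · rw [mul_comm, Nat.mul_add_div hM, Nat.div_eq_of_lt hj, add_zero]
  · rw [mul_comm, Nat.mul_add_mod, Nat.mod_eq_of_lt hj]

lemma block_le {N M e : ℕ} (hM : 0 < M) (hN : M ∣ N) (he : e < N / M) : e * M + M ≤ N := by
  obtain ⟨t, rfl⟩ := hN
  rw [Nat.mul_div_cancel_left _ hM] at he
  calc e * M + M = (e + 1) * M := by ring
    _ ≤ t * M := Nat.mul_le_mul_right _ he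
    _ = M * t := by ring

lemma ED_rot {N n M : ℕ} (hn : N ≤ n) (hM : 0 < M) (hN : M ∣ N) (x : Fin N → Bool) {e : ℕ}
    (he : e < N / M) : ED n (pad n x) (pad n (x ∘ rot N M e 1)) ≤ 2 := by
  rw [ED_pad]
  have hle : e * M + M ≤ N := block_le hM hN he
  have : editDist (word n (ext0 x)) (word n (ext0 (x ∘ rot N M e 1))) ≤ 2 := by
    apply editDist_rotate (p := e * M) (m := M - 1) (by omega)
    · intro j hj
      rw [ext0_comp x hM hN _ _ _ (by omega), rotNat_of_ne]
      intro hcon
      have := Nat.div_mul_le_self j M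
      rw [hcon] at this
      omega
    · intro j hj
      rw [ext0_comp x hM hN _ _ _ (by omega)]
      have hb := div_block (M := M) (e := e) (j := j) (by omega)
      rw [rotNat, if_pos hb.1, hb.2, Nat.mod_eq_of_lt (by omega)]
      congr 1
      ring
    · rw [ext0_comp x hM hN _ _ _ (by omega)]
      have hb := div_block (M := M) (e := e) (j := M - 1) (by omega)
      rw [rotNat, if_pos hb.1, hb.2, Nat.sub_add_cancel hM, Nat.mod_self, add_zero]
    · intro j hj
      by_cases hjN : j < N
      · rw [ext0_comp x hM hN _ _ _ hjN, rotNat_of_ne]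
        intro hcon
        have h1 := Nat.div_add_mod' j M
        have h2 := Nat.mod_lt j hM
        rw [hcon] at h1
        omega
      · rw [ext0_ge _ (by omega), ext0_ge _ (by omega)]
  exact_mod_cast this

/-! ### Averages over sub-words -/

lemma mean_comp_inj {ι κ : Type} [Fintype ι] [DecidableEq ι] [Fintype κ] [DecidableEq κ]
    (e : κ → ι) (he : Function.Injective e) (Ψ : (κ → Bool) → ℝ) :
    mean (fun y : ι → Bool => Ψ (y ∘ e)) = mean Ψ := by
  classical
  set p : ι → Prop := fun i => i ∈ Set.range e with hp
  let E := Equiv.piEquivPiSubtypeProd p (fun _ => Bool)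
  let e' : κ ≃ {i // p i} := Equiv.ofInjective e he
  have h1 : ∑ y : ι → Bool, Ψ (y ∘ e)
      = ∑ q : (({i // p i} → Bool) × ({i // ¬ p i} → Bool)), Ψ (q.1 ∘ e') := by
    rw [← Equiv.sum_comp E]
    apply sum_congr rfl
    intro y _
    rfl
  have h2 : ∑ a : {i // p i} → Bool, Ψ (a ∘ e') = ∑ v : κ → Bool, Ψ v := by
    rw [← Equiv.sum_comp (Equiv.arrowCongr e'.symm (Equiv.refl Bool))]
    apply sum_congr rfl
    intro a _
    rfl
  have hcard : (Fintype.card (ι → Bool) : ℝ)
      = Fintype.card ({i // ¬ p i} → Bool) * Fintype.card (κ → Bool) := by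
    rw [Fintype.card_congr E, Fintype.card_prod,
      Fintype.card_congr (Equiv.arrowCongr e'.symm (Equiv.refl Bool))]
    push_cast; ring
  unfold mean
  rw [h1, Fintype.sum_prod_type]
  simp only [sum_const, card_univ, nsmul_eq_mul]
  rw [← mul_sum, h2, hcard]
  have hne : (Fintype.card ({i // ¬ p i} → Bool) : ℝ) ≠ 0 := by
    exact_mod_cast Fintype.card_ne_zero
  have hne' : (Fintype.card (κ → Bool) : ℝ) ≠ 0 := by
    exact_mod_cast Fintype.card_ne_zero
  field_simp

/-- The two halves of a block have, on average, no long common subsequence. -/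
lemma far_pair {N n q a : ℕ} (hn : N ≤ n) (hq : 1 ≤ q) (hN : 2 * (64 * q) ∣ N)
    (ha : a < N / (2 * (64 * q))) :
    (q : ℝ) / 2 ≤ mean (fun x : Fin N → Bool =>
      ED n (pad n x) (pad n (x ∘ rot N (2 * (64 * q)) a (64 * q)))) := by
  classical
  set h : ℕ := 64 * q with hh
  have hh0 : 0 < h := by omega
  have h20 : 0 < 2 * h := by omega
  have hle : a * (2 * h) + 2 * h ≤ N := block_le h20 hN ha
  -- the two halves
  let e1 : Fin h → Fin N := fun j => ⟨a * (2 * h) + j, by omega⟩
  let e2 : Fin h → Fin N := fun j => ⟨a * (2 * h) + h + j, by omega⟩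
  have he2 : Function.Injective e2 := by
    intro i j hij
    have := congrArg (fun z : Fin N => (z : ℕ)) hij
    simp only [e2] at this
    apply Fin.ext; omega
  let P : (Fin N → Bool) → Prop := fun x => ∃ w : List Bool,
    w.Sublist (List.ofFn (x ∘ e1)) ∧ w.Sublist (List.ofFn (x ∘ e2)) ∧ w.length = h - q
  -- outside the exceptional set the distance is more than `q`
  have hpt : ∀ x : Fin N → Bool, (q : ℝ) * (1 - (if P x then 1 else 0))
      ≤ ED n (pad n x) (pad n (x ∘ rot N (2 * h) a h)) := by
    intro x
    by_cases hP : P x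
    · rw [if_pos hP]
      have : 0 ≤ ED n (pad n x) (pad n (x ∘ rot N (2 * h) a h)) := by
        rw [ED_pad]; positivity
      simpa using this
    · rw [if_neg hP, ED_pad, sub_zero, mul_one]
      by_contra hcon
      push Not at hcon
      apply hP
      have hlt : editDist (word n (ext0 x)) (word n (ext0 (x ∘ rot N (2 * h) a h))) ≤ q := by
        have : editDist (word n (ext0 x)) (word n (ext0 (x ∘ rot N (2 * h) a h))) < q := by
          exact_mod_cast hcon
        omega
      obtain ⟨m, hm⟩ : ∃ m, n = a * (2 * h) + (h + m) := ⟨n - a * (2 * h) - h, by omega⟩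
      rw [hm, word_add, word_add h m, word_add, word_add h m] at hlt
      obtain ⟨w, hw1, hw2, hw3⟩ := local_common (by simp [word_length]) (by simp [word_length])
        (by simp [word_length]) hlt
      refine ⟨w, ?_, ?_, ?_⟩
      · have : List.ofFn (x ∘ e1) = word h (fun j => ext0 x (a * (2 * h) + j)) := by
          apply List.ext_getElem
          · simp [word]
          · intro i h1 h2
            have hi : i < h := by simpa [word] using h2
            have hi' : a * (2 * h) + i < N := by omega
            simp [word, ext0, e1, hi']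
        rw [this]; exact hw1
      · have : List.ofFn (x ∘ e2)
            = word h (fun j => ext0 (x ∘ rot N (2 * h) a h) (a * (2 * h) + j)) := by
          apply List.ext_getElem
          · simp [word]
          · intro i h1 h2
            have hi : i < h := by simpa [word] using h2
            have hi' : a * (2 * h) + h + i < N := by omega
            have hb := div_block (M := 2 * h) (e := a) (j := i) (by omega)
            have hr : rotNat (2 * h) a h (a * (2 * h) + i) = a * (2 * h) + h + i := by
              rw [rotNat, if_pos hb.1, hb.2, Nat.mod_eq_of_lt (by omega)]; ring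
            have hx : ext0 (x ∘ rot N (2 * h) a h) (a * (2 * h) + i) = ext0 x (a * (2 * h) + h + i) := by
              rw [ext0_comp x h20 hN _ _ _ (by omega), hr]
            simp only [word, List.getElem_ofFn, List.getElem_map, List.getElem_range, hx]
            simp [ext0, e2, hi']
        rw [this]; exact hw2
      · rw [word_length] at hw3; exact hw3
  -- the exceptional set is small
  have hsmall : mean (fun x : Fin N → Bool => (if P x then (1:ℝ) else 0)) ≤ 1 / 2 := by
    rw [← mean_piecewise (blk N h (2 * a + 1))]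
    have hx : ∀ x : Fin N → Bool, mean (fun y : Fin N → Bool =>
        (if P ((blk N h (2 * a + 1)).piecewise y x) then (1:ℝ) else 0)) ≤ 1 / 2 := by
      intro x
      let Q : (Fin h → Bool) → Prop := fun v => ∃ w : List Bool,
        w.Sublist (List.ofFn (x ∘ e1)) ∧ w.Sublist (List.ofFn v) ∧ w.length = h - q
      have hPQ : ∀ y : Fin N → Bool, P ((blk N h (2 * a + 1)).piecewise y x) ↔ Q (y ∘ e2) := by
        intro y
        have r1 : (blk N h (2 * a + 1)).piecewise y x ∘ e1 = x ∘ e1 := by
          funext j
          simp only [Function.comp_apply]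
          rw [piecewise_eq_of_notMem]
          rw [mem_blk]
          simp only [e1]
          have hb := div_block (M := h) (e := 2 * a) (j := (j : ℕ)) j.2
          rw [show a * (2 * h) + (j : ℕ) = 2 * a * h + j by ring, hb.1]
          omega
        have r2 : (blk N h (2 * a + 1)).piecewise y x ∘ e2 = y ∘ e2 := by
          funext j
          simp only [Function.comp_apply]
          rw [piecewise_eq_of_mem]
          rw [mem_blk]
          simp only [e2]
          have hb := div_block (M := h) (e := 2 * a + 1) (j := (j : ℕ)) j.2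
          rw [show a * (2 * h) + h + (j : ℕ) = (2 * a + 1) * h + j by ring, hb.1]
        simp only [P, Q, r1, r2]
      have hrew : (fun y : Fin N → Bool =>
          (if P ((blk N h (2 * a + 1)).piecewise y x) then (1:ℝ) else 0))
          = fun y => (fun v => if Q v then (1:ℝ) else 0) (y ∘ e2) := by
        funext y
        simp only [hPQ]
      rw [hrew, mean_comp_inj e2 he2 (fun v => if Q v then (1:ℝ) else 0)]
      unfold mean
      rw [← sum_filter, sum_const, nsmul_eq_mul, mul_one]
      have hcount := count_common (h := h) (l := h - q) (List.ofFn (x ∘ e1)) (by simp)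
      rw [div_le_div_iff₀ (by positivity) (by norm_num)]
      have hcard : (Fintype.card (Fin h → Bool) : ℝ) = (2:ℝ) ^ h := by simp
      rw [hcard]
      set C := (univ.filter (fun v : Fin h → Bool => Q v)).card with hC
      have hcount' : C * (16 ^ (h - q) * 16 ^ (h - q)) ≤ 17 ^ h * 17 ^ h := hcount
      have hnum : (17 ^ h * 17 ^ h : ℕ) * 2 ≤ 2 ^ h * (16 ^ (h - q) * 16 ^ (h - q)) := by
        have e1 : h - q = 63 * q := by omega
        rw [e1, hh, ← pow_add, ← pow_add, show 64 * q + 64 * q = 128 * q by ring,
          show 63 * q + 63 * q = 126 * q by ring, pow_mul, pow_mul, pow_mul, ← mul_pow]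
        calc (17 ^ 128) ^ q * 2 ≤ (17 ^ 128) ^ q * 2 ^ q := by
              apply Nat.mul_le_mul_left
              calc 2 = 2 ^ 1 := by norm_num
                _ ≤ 2 ^ q := Nat.pow_le_pow_right (by norm_num) hq
          _ = (17 ^ 128 * 2) ^ q := by rw [mul_pow]
          _ ≤ (2 ^ 64 * 16 ^ 126) ^ q := Nat.pow_le_pow_left (by norm_num) _
      have hfin : C * 2 * (16 ^ (h - q) * 16 ^ (h - q)) ≤ 2 ^ h * (16 ^ (h - q) * 16 ^ (h - q)) := by
        calc C * 2 * (16 ^ (h - q) * 16 ^ (h - q))
            = C * (16 ^ (h - q) * 16 ^ (h - q)) * 2 := by ring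
          _ ≤ (17 ^ h * 17 ^ h) * 2 := Nat.mul_le_mul_right _ hcount'
          _ ≤ _ := hnum
      have hfin' := Nat.le_of_mul_le_mul_right hfin (by positivity)
      rw [one_mul]
      exact_mod_cast hfin'
    refine (mean_mono hx).trans ?_
    rw [mean_const]
  calc (q : ℝ) / 2 ≤ q * (1 - mean (fun x : Fin N → Bool => (if P x then (1:ℝ) else 0))) := by
        have : (0:ℝ) ≤ q := by positivity
        nlinarith
    _ = mean (fun x : Fin N → Bool => (q : ℝ) * (1 - (if P x then 1 else 0))) := by
        rw [mean_const_mul, mean_sub, mean_const]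
    _ ≤ _ := mean_mono hpt

end Vale.Agent.P238
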