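import Vale.Agent.Lib.P238.Kkl

/-!
Coordinate permutations, block resampling and the block version of the
shift-invariant KKL inequality.
-/

set_option linter.unusedSectionVars false

namespace Vale.Agent.P238

open Finset

variable {ι : Type} [Fintype ι] [DecidableEq ι]

/-- The action of a coordinate permutation on words. -/
def permEquiv (π : Equiv.Perm ι) : (ι → Bool) ≃ (ι → Bool) where
  toFun x := x ∘ π
  invFun x := x ∘ π.symm
  left_inv x := by funext i; simp
  right_inv x := by funext i; simp

/-- Squared distance between `g` and `g` composed with a permutation; for `±1` valued functions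
this is the probability that the two values differ. -/
noncomputable def dst (g : (ι → Bool) → ℝ) (π : Equiv.Perm ι) : ℝ :=
  mean (fun x => ((g x - g (x ∘ π)) / 2) ^ 2)

lemma dst_nonneg (g : (ι → Bool) → ℝ) (π : Equiv.Perm ι) : 0 ≤ dst g π :=
  mean_nonneg fun x => by positivity

lemma chi_comp (S : Finset ι) (π : Equiv.Perm ι) (x : ι → Bool) :
    chi S (x ∘ π) = chi (S.map π.toEmbedding) x := by
  unfold chi
  rw [prod_map]
  rfl

lemma fc_comp (g : (ι → Bool) → ℝ) (π : Equiv.Perm ι) (S : Finset ι) :
    fc (fun x => g (x ∘ π)) (S.map π.toEmbedding) = fc g S := by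
  unfold fc
  rw [← mean_equiv (permEquiv π) (fun x => g x * chi S x)]
  congr 1
  funext x
  change _ = g (x ∘ π) * chi S (x ∘ π)
  rw [chi_comp]

/-- Action on finite sets as a bijection. -/
def mapEquiv (π : Equiv.Perm ι) : Finset ι ≃ Finset ι where
  toFun S := S.map π.toEmbedding
  invFun S := S.map π.symm.toEmbedding
  left_inv S := by ext i; simp
  right_inv S := by ext i; simp

lemma four_dst (g : (ι → Bool) → ℝ) (π : Equiv.Perm ι) :
    4 * dst g π = ∑ S : Finset ι, (fc g (S.map π.toEmbedding) - fc g S) ^ 2 := by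
  have h1 : 4 * dst g π = mean (fun x => (g x - g (x ∘ π)) ^ 2) := by
    unfold dst
    rw [← mean_const_mul]
    congr 1; funext x; ring
  rw [h1, parseval]
  rw [← Equiv.sum_comp (mapEquiv π)]
  apply sum_congr rfl
  intro S _
  rw [fc_sub]
  change (fc (fun x => g x) (S.map π.toEmbedding)
    - fc (fun x => g (x ∘ π)) (S.map π.toEmbedding)) ^ 2 = _
  rw [fc_comp]

lemma pm_tri {a b c : ℝ} (ha : a = 1 ∨ a = -1) (hb : b = 1 ∨ b = -1) (hc : c = 1 ∨ c = -1) :
    ((a - c) / 2) ^ 2 ≤ ((a - b) / 2) ^ 2 + ((b - c) / 2) ^ 2 := by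
  rcases ha with h | h <;> rcases hb with h' | h' <;> rcases hc with h'' | h'' <;>
    rw [h, h', h''] <;> norm_num

lemma dst_one (g : (ι → Bool) → ℝ) : dst g 1 = 0 := by
  unfold dst
  have : (fun x : ι → Bool => ((g x - g (x ∘ (1 : Equiv.Perm ι))) / 2) ^ 2) = fun _ => (0:ℝ) := by
    funext x
    have : x ∘ (1 : Equiv.Perm ι) = x := by funext i; simp
    rw [this]; ring
  rw [this, mean_const]

lemma dst_mul {g : (ι → Bool) → ℝ} (hg : ∀ x, g x = 1 ∨ g x = -1) (π τ : Equiv.Perm ι) :
    dst g (π * τ) ≤ dst g π + dst g τ := by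
  have h1 : dst g τ = mean (fun x => ((g (x ∘ π) - g ((x ∘ π) ∘ τ)) / 2) ^ 2) := by
    unfold dst
    rw [← mean_equiv (permEquiv π)]
    rfl
  rw [h1]
  unfold dst
  rw [← mean_add]
  apply mean_mono
  intro x
  have : x ∘ (π * τ : Equiv.Perm ι) = (x ∘ π) ∘ τ := by funext i; simp
  rw [this]
  exact pm_tri (hg _) (hg _) (hg _)

lemma dst_pow {g : (ι → Bool) → ℝ} (hg : ∀ x, g x = 1 ∨ g x = -1) (π : Equiv.Perm ι) (k : ℕ) :
    dst g (π ^ k) ≤ k * dst g π := by
  induction k with
  | zero => simp [dst_one]
  | succ k ih =>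
    rw [pow_succ]
    refine (dst_mul hg _ _).trans ?_
    push_cast
    linarith

lemma flip_comp (i : ι) (π : Equiv.Perm ι) (x : ι → Bool) :
    (flip i x) ∘ π = flip (π.symm i) (x ∘ π) := by
  funext j
  by_cases h : j = π.symm i
  · subst h
    simp [flip]
  · have h' : π j ≠ i := by
      intro hcon
      apply h
      rw [← hcon]; simp
    simp only [Function.comp_apply]
    rw [flip_ne h', flip_ne h]
    rfl

lemma infl_le_symm {g : (ι → Bool) → ℝ} (hg : ∀ x, g x = 1 ∨ g x = -1) (π : Equiv.Perm ι) (i : ι) :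
    infl i g ≤ infl (π.symm i) g + 2 * dst g π := by
  have h1 : infl (π.symm i) g
      = mean (fun x => ((g (x ∘ π) - g ((flip i x) ∘ π)) / 2) ^ 2) := by
    unfold infl deriv'
    rw [← mean_equiv (permEquiv π)]
    congr 1
    funext x
    rw [flip_comp]
    rfl
  have h2 : dst g π = mean (fun x => ((g (flip i x) - g ((flip i x) ∘ π)) / 2) ^ 2) := by
    unfold dst
    rw [← mean_equiv (flipEquiv i)]
    rfl
  have h3 : infl i g ≤ mean (fun x => (((g x - g (x ∘ π)) / 2) ^ 2
      + ((g (x ∘ π) - g ((flip i x) ∘ π)) / 2) ^ 2)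
      + ((g (flip i x) - g ((flip i x) ∘ π)) / 2) ^ 2) := by
    apply mean_mono
    intro x
    unfold deriv'
    have t1 := pm_tri (hg x) (hg (x ∘ π)) (hg (flip i x))
    have t2 := pm_tri (hg (x ∘ π)) (hg ((flip i x) ∘ π)) (hg (flip i x))
    have t3 : ((g ((flip i x) ∘ π) - g (flip i x)) / 2) ^ 2
        = ((g (flip i x) - g ((flip i x) ∘ π)) / 2) ^ 2 := by ring
    linarith
  rw [mean_add, mean_add, ← h1, ← h2] at h3
  have h4 : mean (fun x => ((g x - g (x ∘ π)) / 2) ^ 2) = dst g π := rfl
  rw [h4] at h3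
  linarith

lemma infl_le_pow {g : (ι → Bool) → ℝ} (hg : ∀ x, g x = 1 ∨ g x = -1) (π : Equiv.Perm ι) (i : ι)
    (r : ℕ) : infl i g ≤ infl ((π.symm ^ r) i) g + 2 * r * dst g π := by
  induction r with
  | zero => simp
  | succ r ih =>
    have h := infl_le_symm hg π ((π.symm ^ r) i)
    have e : (π.symm ^ (r + 1)) i = π.symm ((π.symm ^ r) i) := by
      rw [pow_succ', Equiv.Perm.mul_apply]
    have e' : ((r + 1 : ℕ) : ℝ) = r + 1 := by push_cast; ring
    rw [e, e']
    linarith

/-- The average argument: a nearly shift-invariant function has no exceptional influence. -/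
lemma infl_le_avg {g : (ι → Bool) → ℝ} (hg : ∀ x, g x = 1 ∨ g x = -1) (π : Equiv.Perm ι) (i : ι)
    {t : ℕ} (ht : 1 ≤ t) (hinj : Set.InjOn (fun r : ℕ => (π.symm ^ r) i) (range t)) :
    infl i g ≤ (∑ j, infl j g) / t + t * dst g π := by
  have htpos : (0:ℝ) < t := by exact_mod_cast ht
  have h1 : ∑ _r ∈ range t, infl i g
      ≤ ∑ r ∈ range t, (infl ((π.symm ^ r) i) g + 2 * r * dst g π) :=
    sum_le_sum fun r _ => infl_le_pow hg π i r
  rw [sum_const, card_range, nsmul_eq_mul, sum_add_distrib] at h1
  have h2 : ∑ r ∈ range t, infl ((π.symm ^ r) i) g ≤ ∑ j, infl j g := by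
    rw [← sum_image (f := fun j => infl j g) (g := fun r : ℕ => (π.symm ^ r) i) (s := range t)]
    · exact sum_le_univ_sum_of_nonneg fun j => infl_nonneg j g
    · intro a ha b hb hab
      exact hinj ha hb hab
  have h3 : ∑ r ∈ range t, (2 * (r:ℝ) * dst g π) ≤ t * (t * dst g π) := by
    rw [← sum_mul, ← mul_sum]
    have : 2 * ∑ r ∈ range t, (r:ℝ) ≤ t * t := by
      have hgauss : ∀ n : ℕ, 2 * ∑ r ∈ range n, (r:ℝ) = n * (n - 1) := by
        intro n
        induction n with
        | zero => simp
        | succ n ih => rw [sum_range_succ, mul_add, ih]; push_cast; ring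
      rw [hgauss]
      nlinarith
    calc _ ≤ (t * t : ℝ) * dst g π := mul_le_mul_of_nonneg_right this (dst_nonneg g π)
      _ = _ := by ring
  have h4 : (t:ℝ) * infl i g ≤ ∑ j, infl j g + t * (t * dst g π) := by linarith
  have h5 : infl i g ≤ (∑ j, infl j g + t * (t * dst g π)) / t := by
    rw [le_div_iff₀ htpos]; linarith
  calc infl i g ≤ (∑ j, infl j g + t * (t * dst g π)) / t := h5
    _ = _ := by field_simp

/-- Shift-invariant KKL inequality. -/
lemma shift_kkl {g : (ι → Bool) → ℝ} (hg : ∀ x, g x = 1 ∨ g x = -1) (π : Equiv.Perm ι)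
    {d : ℕ} (hd : 1 ≤ d)
    (hinj : ∀ i, infl i g ≠ 0 →
      Set.InjOn (fun r : ℕ => (π.symm ^ r) i) (range (2 ^ (16 * d)))) :
    1 - (mean g) ^ 2 ≤ 2 / d * (∑ j, infl j g + 2 ^ (32 * d) * dst g π) := by
  have hdpos : (0:ℝ) < d := by exact_mod_cast hd
  have hd1 : (1:ℝ) ≤ d := by exact_mod_cast hd
  set J : ℝ := ∑ j, infl j g with hJ
  have hJ0 : 0 ≤ J := sum_nonneg fun j _ => infl_nonneg j g
  have hρ0 := dst_nonneg g π
  by_cases hbig : 32 * (d:ℝ) < J + 2 ^ (32 * d) * dst g π
  · have : (1:ℝ) ≤ 2 / d * (J + 2 ^ (32 * d) * dst g π) := by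
      calc (1:ℝ) ≤ 64 := by norm_num
        _ = 2 / d * (32 * d) := by field_simp; norm_num
        _ ≤ _ := mul_le_mul_of_nonneg_left hbig.le (by positivity)
    nlinarith [sq_nonneg (mean g)]
  · push Not at hbig
    set t : ℕ := 2 ^ (16 * d) with ht
    have ht1 : 1 ≤ t := Nat.one_le_two_pow
    have htR : (t:ℝ) = 2 ^ (16 * d) := by rw [ht]; push_cast; ring
    have htpos : (0:ℝ) < t := by exact_mod_cast ht1
    have hs : (2:ℝ) ^ (32 * d) = t * t := by rw [htR, ← pow_add]; congr 1; ring
    have hJle : J ≤ 32 * d := by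
      have : 0 ≤ (2:ℝ) ^ (32 * d) * dst g π := by positivity
      linarith
    have hρle : t * dst g π ≤ 32 * d / t := by
      rw [le_div_iff₀ htpos]
      have : (t:ℝ) * dst g π * t = 2 ^ (32 * d) * dst g π := by rw [hs]; ring
      rw [this]; linarith
    have hinf : ∀ i, infl i g ≤ ((1 / 2 : ℝ) ^ (4 * d)) ^ 2 := by
      intro i
      by_cases hi0 : infl i g = 0
      · rw [hi0]; positivity
      · have h1 := infl_le_avg hg π i ht1 (hinj i hi0)
        have h2 : infl i g ≤ 64 * d / t := by
          have : J / t ≤ 32 * d / t := div_le_div_of_nonneg_right hJle htpos.le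
          calc infl i g ≤ J / t + t * dst g π := h1
            _ ≤ 32 * d / t + 32 * d / t := add_le_add this hρle
            _ = _ := by ring
        refine h2.trans ?_
        rw [← pow_mul, one_div, inv_pow, ← one_div, htR, div_le_div_iff₀ (by positivity) (by positivity)]
        have e1 : (2:ℝ) ^ (16 * d) = 2 ^ (4 * d * 2) * 2 ^ (4 * d * 2) := by
          rw [← pow_add]; congr 1; ring
        rw [e1, one_mul]
        have e2 : 64 * (d:ℝ) ≤ 2 ^ (4 * d * 2) := by
          have e3 : (2:ℝ) ^ (4 * d * 2) = (256:ℝ) ^ d := by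
            rw [show 4 * d * 2 = 8 * d by ring, pow_mul]; norm_num
          rw [e3]
          have h6 : ∀ n : ℕ, 1 ≤ n → 64 * (n:ℝ) ≤ 256 ^ n := by
            intro n hn
            induction n, hn using Nat.le_induction with
            | base => norm_num
            | succ n hn ih =>
              have hn' : (1:ℝ) ≤ n := by exact_mod_cast hn
              rw [pow_succ]; push_cast; nlinarith
          exact h6 d hd
        exact mul_le_mul_of_nonneg_right e2 (by positivity)
    have hk := kkl hg (δ := (1 / 2 : ℝ) ^ (4 * d)) (by positivity) hinf hd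
    refine hk.trans ?_
    have h7 : (3:ℝ) ^ d * (1 / 2) ^ (4 * d) ≤ 1 / d := by
      rw [pow_mul, ← mul_pow]
      norm_num
      have h6 : ∀ n : ℕ, 1 ≤ n → (3 / 16 : ℝ) ^ n ≤ (n:ℝ)⁻¹ := by
        intro n hn
        induction n, hn using Nat.le_induction with
        | base => norm_num
        | succ n hn ih =>
          have hn' : (1:ℝ) ≤ n := by exact_mod_cast hn
          rw [pow_succ]
          push_cast
          calc (3 / 16 : ℝ) ^ n * (3 / 16) ≤ (n:ℝ)⁻¹ * (3 / 16) :=
                mul_le_mul_of_nonneg_right ih (by norm_num)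
            _ ≤ ((n:ℝ) + 1)⁻¹ := by
                rw [inv_mul_eq_div, div_le_iff₀ (by linarith), inv_mul_eq_div, le_div_iff₀ (by linarith)]
                nlinarith
      exact h6 d hd
    have h8 : (3:ℝ) ^ d * (1 / 2) ^ (4 * d) + 1 / d ≤ 2 / d := by
      calc (3:ℝ) ^ d * (1 / 2) ^ (4 * d) + 1 / d ≤ 1 / d + 1 / d := by linarith
        _ = _ := by ring
    have h9 : J ≤ J + 2 ^ (32 * d) * dst g π := by
      have : 0 ≤ (2:ℝ) ^ (32 * d) * dst g π := by positivity
      linarith
    exact mul_le_mul h8 h9 hJ0 (by positivity)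

/-! ### Block resampling -/

/-- Energy of the part of `g` which depends on the block `I`. -/
noncomputable def blockVar (I : Finset ι) (g : (ι → Bool) → ℝ) : ℝ :=
  ∑ S : Finset ι, if Disjoint S I then 0 else fc g S ^ 2

lemma blockVar_nonneg (I : Finset ι) (g : (ι → Bool) → ℝ) : 0 ≤ blockVar I g := by
  apply sum_nonneg
  intro S _
  split_ifs
  · exact le_refl _
  · positivity

lemma chi_piecewise (T I : Finset ι) (x y : ι → Bool) :
    chi T (I.piecewise y x) = chi (T ∩ I) y * chi (T \ I) x := by
  unfold chi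
  rw [← prod_inter_mul_prod_sdiff T I]
  congr 1
  · apply prod_congr rfl
    intro i hi
    rw [piecewise_eq_of_mem _ _ _ (mem_inter.mp hi).2]
  · apply prod_congr rfl
    intro i hi
    rw [piecewise_eq_of_notMem _ _ _ (mem_sdiff.mp hi).2]

lemma mean_chi (T : Finset ι) : mean (fun x : ι → Bool => chi T x) = if T = ∅ then 1 else 0 := by
  split_ifs with h
  · subst h
    simp only [chi_empty]
    exact mean_const 1
  · obtain ⟨i, hi⟩ := nonempty_iff_ne_empty.mpr h
    exact mean_eq_zero_of_flip (i := i) fun x => chi_flip_of_mem hi x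

/-- Averaging over the block. -/
lemma avg_block_eq (I : Finset ι) (g : (ι → Bool) → ℝ) (x : ι → Bool) :
    mean (fun y => g (I.piecewise y x))
      = ∑ S : Finset ι, (if Disjoint S I then fc g S else 0) * chi S x := by
  have h1 : (fun y => g (I.piecewise y x))
      = fun y => ∑ S : Finset ι, (fc g S * chi (S \ I) x) * chi (S ∩ I) y := by
    funext y
    rw [fourier_inversion g (I.piecewise y x)]
    apply sum_congr rfl
    intro S _
    rw [chi_piecewise]; ring
  rw [h1, mean_sum]
  apply sum_congr rfl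
  intro S _
  rw [mean_const_mul, mean_chi]
  by_cases h : Disjoint S I
  · have h2 : S ∩ I = ∅ := disjoint_iff_inter_eq_empty.mp h
    have h3 : S \ I = S := sdiff_eq_self_of_disjoint h
    simp [h, h2, h3]
  · have h2 : S ∩ I ≠ ∅ := fun h' => h (disjoint_iff_inter_eq_empty.mpr h')
    simp [h, h2]

lemma blockVar_eq (I : Finset ι) {g : (ι → Bool) → ℝ} (hg : ∀ x, g x = 1 ∨ g x = -1) :
    blockVar I g = mean (fun x => 1 - (mean (fun y => g (I.piecewise y x))) ^ 2) := by
  have h1 : mean (fun x => g x ^ 2) = 1 := by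
    have : (fun x => g x ^ 2) = fun _ => (1:ℝ) := by
      funext x; rcases hg x with h | h <;> rw [h] <;> norm_num
    rw [this, mean_const]
  have h2 : (fun x => mean (fun y => g (I.piecewise y x)))
      = fun x => ∑ S : Finset ι, (if Disjoint S I then fc g S else 0) * chi S x := by
    funext x; exact avg_block_eq I g x
  rw [mean_sub, mean_const, parseval, h2]
  simp only [fc_charSum]
  rw [← h1, parseval, ← sum_sub_distrib]
  unfold blockVar
  apply sum_congr rfl
  intro S _
  split_ifs <;> simp

/-- Swapping the block `I` between two words. -/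
def swapPair (I : Finset ι) : ((ι → Bool) × (ι → Bool)) ≃ ((ι → Bool) × (ι → Bool)) where
  toFun p := (I.piecewise p.2 p.1, I.piecewise p.1 p.2)
  invFun p := (I.piecewise p.2 p.1, I.piecewise p.1 p.2)
  left_inv p := by
    ext i
    · by_cases h : i ∈ I <;> simp [h]
    · by_cases h : i ∈ I <;> simp [h]
  right_inv p := by
    ext i
    · by_cases h : i ∈ I <;> simp [h]
    · by_cases h : i ∈ I <;> simp [h]

lemma mean_piecewise (I : Finset ι) (Φ : (ι → Bool) → ℝ) :
    mean (fun x => mean (fun y => Φ (I.piecewise y x))) = mean Φ := by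
  unfold mean
  rw [← sum_div, ← Fintype.sum_prod_type' (f := fun x y => Φ (I.piecewise y x))]
  have h := Equiv.sum_comp (swapPair I) (fun p : (ι → Bool) × (ι → Bool) => Φ p.1)
  change (∑ p : (ι → Bool) × (ι → Bool), Φ (I.piecewise p.2 p.1)) = _ at h
  rw [h, Fintype.sum_prod_type]
  simp only [sum_const, card_univ, nsmul_eq_mul]
  rw [← mul_sum]
  have : (Fintype.card (ι → Bool) : ℝ) ≠ 0 := by exact_mod_cast Fintype.card_ne_zero
  field_simp

/-- Block version of the shift-invariant KKL inequality. -/
lemma block_kkl {f : (ι → Bool) → ℝ} (hf : ∀ x, f x = 1 ∨ f x = -1) (I : Finset ι)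
    (π : Equiv.Perm ι) (hπ : ∀ i, i ∉ I → π i = i) {d : ℕ} (hd : 1 ≤ d)
    (hinj : ∀ i ∈ I, Set.InjOn (fun r : ℕ => (π.symm ^ r) i) (range (2 ^ (16 * d)))) :
    blockVar I f ≤ 2 / d * (∑ j ∈ I, infl j f + 2 ^ (32 * d) * dst f π) := by
  have hmem : ∀ j, π j ∈ I ↔ j ∈ I := by
    intro j
    constructor
    · intro h
      by_contra hj
      rw [hπ j hj] at h
      exact hj h
    · intro h
      by_contra hj
      have := hπ (π j) hj
      have h2 := π.injective this
      rw [h2] at hj
      exact hj h
  rw [blockVar_eq I hf]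
  have h1 : ∀ x, 1 - (mean (fun y => f (I.piecewise y x))) ^ 2
      ≤ 2 / d * (∑ j, infl j (fun y => f (I.piecewise y x))
          + 2 ^ (32 * d) * dst (fun y => f (I.piecewise y x)) π) := by
    intro x
    apply shift_kkl (g := fun y => f (I.piecewise y x)) (fun y => hf _) π hd
    intro i hi
    by_cases hiI : i ∈ I
    · exact hinj i hiI
    · exfalso
      apply hi
      unfold infl deriv'
      have : (fun y : ι → Bool =>
          ((f (I.piecewise y x) - f (I.piecewise (flip i y) x)) / 2) ^ 2) = fun _ => (0:ℝ) := by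
        funext y
        have : I.piecewise (flip i y) x = I.piecewise y x := by
          funext j
          by_cases hj : j ∈ I
          · have hji : j ≠ i := by rintro rfl; exact hiI hj
            simp [hj, flip_ne hji]
          · simp [hj]
        rw [this]; ring
      rw [this, mean_const]
  refine (mean_mono h1).trans ?_
  rw [mean_const_mul, mean_add, mean_sum, mean_const_mul]
  apply mul_le_mul_of_nonneg_left _ (by positivity)
  apply le_of_eq
  congr 1
  · rw [← sum_subset (subset_univ I)]
    · apply sum_congr rfl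
      intro i hi
      rw [infl, ← mean_piecewise I (fun x => deriv' i f x ^ 2)]
      congr 1
      funext x
      unfold infl
      congr 1
      funext y
      unfold deriv'
      have : I.piecewise (flip i y) x = flip i (I.piecewise y x) := by
        funext j
        by_cases hji : j = i
        · subst hji
          simp [hi, flip]
        · rw [flip_ne hji]
          by_cases hj : j ∈ I
          · simp [hj, flip_ne hji]
          · simp [hj]
      change ((f (I.piecewise y x) - f (I.piecewise (flip i y) x)) / 2) ^ 2 = _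
      rw [this]
    · intro i _ hi
      have : (fun x => infl i (fun y => f (I.piecewise y x))) = fun _ => (0:ℝ) := by
        funext x
        unfold infl deriv'
        have : (fun y : ι → Bool =>
            ((f (I.piecewise y x) - f (I.piecewise (flip i y) x)) / 2) ^ 2) = fun _ => (0:ℝ) := by
          funext y
          have : I.piecewise (flip i y) x = I.piecewise y x := by
            funext j
            by_cases hj : j ∈ I
            · have hji : j ≠ i := by rintro rfl; exact hi hj
              simp [hj, flip_ne hji]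
            · simp [hj]
          rw [this]; ring
        rw [this, mean_const]
      rw [this, mean_const]
  · congr 1
    rw [dst, ← mean_piecewise I (fun x => ((f x - f (x ∘ π)) / 2) ^ 2)]
    congr 1
    funext x
    unfold dst
    congr 1
    funext y
    have : I.piecewise (y ∘ π) x = (I.piecewise y x) ∘ π := by
      funext j
      by_cases hj : j ∈ I
      · have : π j ∈ I := (hmem j).mpr hj
        simp [hj, this]
      · have : π j = j := hπ j hj
        simp [hj, this]
    change ((f (I.piecewise y x) - f (I.piecewise (y ∘ π) x)) / 2) ^ 2 = _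
    rw [this]

end Vale.Agent.P238
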