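import Vale.Agent.Lib.P238.Blocks

/-!
The one-scale inequality and its sum over scales.
-/

set_option linter.unusedSectionVars false

namespace Vale.Agent.P238

open Finset

/-- Blocks of length `s` which are hit by `S`. -/
def hit {N : ℕ} (s : ℕ) (S : Finset (Fin N)) : Finset ℕ :=
  S.image (fun i : Fin N => (i : ℕ) / s)

section OneScale

variable {N h β : ℕ}

/-- `S` meets the block `a` of length `2h` and is not contained, within the long block, in one half
of the block `a`. -/
def Bad (h β a : ℕ) (S : Finset (Fin N)) : Prop :=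
  (∃ i ∈ S, (i : ℕ) / (2 * h) = a) ∧ (∃ i ∈ S, (i : ℕ) / (2 * h * β) = a / β ∧ (i : ℕ) / h ≠ 2 * a)
    ∧ (∃ i ∈ S, (i : ℕ) / (2 * h * β) = a / β ∧ (i : ℕ) / h ≠ 2 * a + 1)

def Low (h β a : ℕ) (S : Finset (Fin N)) : Prop :=
  (∃ i ∈ S, (i : ℕ) / (2 * h) = a) ∧ (∀ i ∈ S, (i : ℕ) / (2 * h * β) = a / β → (i : ℕ) / h = 2 * a)

def High (h β a : ℕ) (S : Finset (Fin N)) : Prop :=
  (∃ i ∈ S, (i : ℕ) / (2 * h) = a) ∧
    (∀ i ∈ S, (i : ℕ) / (2 * h * β) = a / β → (i : ℕ) / h = 2 * a + 1)

lemma div_long {a i : ℕ} (hi : i / (2 * h) = a) : i / (2 * h * β) = a / β := by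
  rw [← Nat.div_div_eq_div_mul, hi]

lemma map_low (hh : 0 < h) (hβ : 0 < β) (hN : 2 * h * β ∣ N) {a : ℕ} {S : Finset (Fin N)}
    (hS : Low h β a S) :
    S.map (rot N (2 * h) a h).toEmbedding = S.map (rot N (2 * h * β) (a / β) h).toEmbedding := by
  have h2 : 0 < 2 * h := by omega
  have hM : 0 < 2 * h * β := by positivity
  have hN2 : 2 * h ∣ N := (Dvd.intro _ rfl).trans hN
  simp only [map_eq_image]
  apply image_congr
  intro i hi
  apply Fin.ext
  simp only [Equiv.coe_toEmbedding]
  rw [rot_val h2 hN2, rot_val hM hN]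
  by_cases hb : (i : ℕ) / (2 * h * β) = a / β
  · have hl := hS.2 i hi hb
    rw [swap_low hh hl, rot_shift hh hβ hl]
  · rw [rotNat_of_ne hb, rotNat_of_ne]
    intro hcon
    exact hb (div_long hcon)

lemma map_high (hh : 0 < h) (hβ : 0 < β) (hN : 2 * h * β ∣ N) {a : ℕ} {S : Finset (Fin N)}
    (hS : High h β a S) :
    S.map (rot N (2 * h) a h).toEmbedding
      = S.map (rot N (2 * h * β) (a / β) h).symm.toEmbedding := by
  have h2 : 0 < 2 * h := by omega
  have hM : 0 < 2 * h * β := by positivity
  have hN2 : 2 * h ∣ N := (Dvd.intro _ rfl).trans hN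
  simp only [map_eq_image]
  apply image_congr
  intro i hi
  simp only [Equiv.coe_toEmbedding]
  rw [Equiv.eq_symm_apply]
  apply Fin.ext
  rw [rot_val hM hN, rot_val h2 hN2]
  by_cases hb : (i : ℕ) / (2 * h * β) = a / β
  · have hl := hS.2 i hi hb
    have e1 := swap_high hh hl
    have e2 : rotNat (2 * h) a h i / h = 2 * a := by
      have : (rotNat (2 * h) a h i + h) / h = 2 * a + 1 := by rw [e1, hl]
      rw [Nat.add_div_right _ hh] at this
      omega
    rw [rot_shift hh hβ e2, e1]
  · have hb2 : (i : ℕ) / (2 * h) ≠ a := fun hcon => hb (div_long hcon)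
    rw [rotNat_of_ne hb2, rotNat_of_ne hb]

lemma map_none (hh : 0 < h) (hN : 2 * h ∣ N) {a : ℕ} {S : Finset (Fin N)}
    (hS : ∀ i ∈ S, (i : ℕ) / (2 * h) ≠ a) :
    S.map (rot N (2 * h) a h).toEmbedding = S := by
  have h2 : 0 < 2 * h := by omega
  rw [map_eq_image]
  conv_rhs => rw [← image_id (s := S)]
  apply image_congr
  intro i hi
  simp only [Equiv.coe_toEmbedding, id]
  exact rot_fix h2 hN a h i (hS i hi)

lemma bad_map (hh : 0 < h) (hN : 2 * h ∣ N) {a : ℕ} {S : Finset (Fin N)}
    (hS : Bad h β a S) : Bad h β a (S.map (rot N (2 * h) a h).toEmbedding) := by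
  have h2 : 0 < 2 * h := by omega
  obtain ⟨⟨i, hi, hia⟩, ⟨j, hj, hja, hjb⟩, ⟨k, hk, hka, hkb⟩⟩ := hS
  refine ⟨⟨rot N (2 * h) a h i, ?_, ?_⟩, ⟨rot N (2 * h) a h k, ?_, ?_, ?_⟩,
    ⟨rot N (2 * h) a h j, ?_, ?_, ?_⟩⟩
  · exact mem_map_of_mem _ hi
  · rw [rot_val h2 hN]; exact (rotNat_block h2 hia).1
  · exact mem_map_of_mem _ hk
  · rw [rot_val h2 hN]
    by_cases hc : (k : ℕ) / (2 * h) = a
    · exact div_long (rotNat_block h2 hc).1
    · rw [rotNat_of_ne hc]; exact hka
  · rw [rot_val h2 hN]
    by_cases hc : (k : ℕ) / (2 * h) = a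
    · have hk2 : (k : ℕ) / h = 2 * a := by
        rcases div_two_mul.mp hc with h' | h'
        · exact h'
        · exact absurd h' hkb
      rw [swap_low hh hk2, Nat.add_div_right _ hh, hk2]
      omega
    · rw [rotNat_of_ne hc]
      intro hcon
      exact hc (div_two_mul.mpr (Or.inl hcon))
  · exact mem_map_of_mem _ hj
  · rw [rot_val h2 hN]
    by_cases hc : (j : ℕ) / (2 * h) = a
    · exact div_long (rotNat_block h2 hc).1
    · rw [rotNat_of_ne hc]; exact hja
  · rw [rot_val h2 hN]
    by_cases hc : (j : ℕ) / (2 * h) = a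
    · have hj2 : (j : ℕ) / h = 2 * a + 1 := by
        rcases div_two_mul.mp hc with h' | h'
        · exact absurd h' hjb
        · exact h'
      have e1 := swap_high hh hj2
      have : (rotNat (2 * h) a h j + h) / h = 2 * a + 1 := by rw [e1, hj2]
      rw [Nat.add_div_right _ hh] at this
      omega
    · rw [rotNat_of_ne hc]
      intro hcon
      exact hc (div_two_mul.mpr (Or.inr hcon))

open scoped Classical in
/-- The number of bad blocks is controlled by the branching of the block structure. -/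
lemma card_bad (A : ℕ) (S : Finset (Fin N)) :
    ((range A).filter (fun a => Bad h β a S)).card + 2 * (hit (2 * h * β) S).card
      ≤ 2 * (hit h S).card := by
  set T : Finset ℕ := hit h S with hT
  set B := (range A).filter (fun a => Bad h β a S) with hB
  have himg : hit (2 * h * β) S = T.image (fun q => q / (2 * β)) := by
    rw [hT, hit, hit, image_image]
    apply image_congr
    intro i _
    simp only [Function.comp_apply]
    rw [Nat.div_div_eq_div_mul]
    congr 1; ring
  rw [himg]
  set D := T.image (fun q => q / (2 * β)) with hD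
  have hTcard : T.card = ∑ d ∈ D, (T.filter (fun q => q / (2 * β) = d)).card :=
    card_eq_sum_card_image _ _
  have hmapsto : ∀ a ∈ B, a / β ∈ D := by
    intro a ha
    obtain ⟨i, hi, hia⟩ := (mem_filter.mp ha).2.1
    rw [hD, mem_image]
    refine ⟨(i : ℕ) / h, ?_, ?_⟩
    · rw [hT, hit, mem_image]; exact ⟨i, hi, rfl⟩
    · rw [← hia, Nat.div_div_eq_div_mul, Nat.div_div_eq_div_mul]
      congr 1; ring
  have hBcard : B.card = ∑ d ∈ D, (B.filter (fun a => a / β = d)).card :=
    card_eq_sum_card_fiberwise hmapsto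
  rw [hTcard, hBcard, mul_sum]
  have hDcard : 2 * D.card = ∑ _d ∈ D, 2 := by rw [sum_const, smul_eq_mul]; ring
  rw [hDcard, ← sum_add_distrib]
  apply sum_le_sum
  intro d hd
  set F := T.filter (fun q => q / (2 * β) = d) with hF
  have hF1 : 1 ≤ F.card := by
    obtain ⟨q, hq, hqd⟩ := mem_image.mp hd
    exact card_pos.mpr ⟨q, mem_filter.mpr ⟨hq, hqd⟩⟩
  by_cases hempty : B.filter (fun a => a / β = d) = ∅
  · rw [hempty, card_empty]; omega
  · obtain ⟨a, ha⟩ := nonempty_iff_ne_empty.mpr hempty
    rw [mem_filter] at ha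
    obtain ⟨haB, had⟩ := ha
    obtain ⟨⟨i, hi, hia⟩, ⟨j, hj, hja, hjb⟩, ⟨k, hk, hka, hkb⟩⟩ := (mem_filter.mp haB).2
    -- elements of F
    have memF : ∀ l ∈ S, (l : ℕ) / (2 * h * β) = a / β → (l : ℕ) / h ∈ F := by
      intro l hl hla
      rw [hF, mem_filter]
      refine ⟨?_, ?_⟩
      · rw [hT, hit, mem_image]; exact ⟨l, hl, rfl⟩
      · rw [← had, ← hla, Nat.div_div_eq_div_mul]
        congr 1; ring
    have hiF := memF i hi (div_long hia)
    have hjF := memF j hj hja
    have hkF := memF k hk hka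
    have hF2 : 2 ≤ F.card := by
      rcases div_two_mul.mp hia with h' | h'
      · have hne : (i : ℕ) / h ≠ (j : ℕ) / h := by rw [h']; exact fun h'' => hjb h''.symm
        exact one_lt_card.mpr ⟨_, hiF, _, hjF, hne⟩
      · have hne : (i : ℕ) / h ≠ (k : ℕ) / h := by rw [h']; exact fun h'' => hkb h''.symm
        exact one_lt_card.mpr ⟨_, hiF, _, hkF, hne⟩
    have hBF : (B.filter (fun a => a / β = d)).card ≤ F.card := by
      have hsub : B.filter (fun a => a / β = d) ⊆ F.image (fun q => q / 2) := by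
        intro a' ha'
        rw [mem_filter] at ha'
        obtain ⟨i', hi', hia'⟩ := (mem_filter.mp ha'.1).2.1
        rw [mem_image]
        refine ⟨(i' : ℕ) / h, ?_, ?_⟩
        · rw [hF, mem_filter]
          refine ⟨?_, ?_⟩
          · rw [hT, hit, mem_image]; exact ⟨i', hi', rfl⟩
          · rw [← ha'.2, ← hia', Nat.div_div_eq_div_mul, Nat.div_div_eq_div_mul]
            congr 1; ring
        · rw [Nat.div_div_eq_div_mul, ← hia']
          congr 1; ring
      exact (card_le_card hsub).trans card_image_le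
    omega

open scoped Classical in
/-- The one-scale inequality, squared form. -/
lemma one_scale_sq (hh : 0 < h) (hβ : 0 < β) (hN : 2 * h * β ∣ N) (g : (Fin N → Bool) → ℝ) :
    ∑ a ∈ range (N / (2 * h)), dst g (rot N (2 * h) a h)
      ≤ 2 * ∑ d ∈ range (N / (2 * h * β)), dst g (rot N (2 * h * β) d h)
        + 2 * ∑ S : Finset (Fin N), (((hit h S).card : ℝ) - (hit (2 * h * β) S).card) * fc g S ^ 2 := by
  have h2 : 0 < 2 * h := by omega
  have hM : 0 < 2 * h * β := by positivity
  have hN2 : 2 * h ∣ N := (Dvd.intro _ rfl).trans hN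
  set c : Finset (Fin N) → ℝ := fc g with hc
  set A := N / (2 * h) with hA
  set D := N / (2 * h * β) with hD
  have hAD : ∀ a ∈ range A, a / β ∈ range D := by
    intro a ha
    rw [mem_range] at ha ⊢
    rw [hD, ← Nat.div_div_eq_div_mul]
    apply Nat.div_lt_of_lt_mul
    have : N / (2 * h) = β * (N / (2 * h) / β) := by
      obtain ⟨t, rfl⟩ := hN
      rw [mul_assoc (2 * h), Nat.mul_div_cancel_left _ h2, Nat.mul_div_cancel_left _ hβ]
    rw [← this]; exact ha
  -- pointwise bound
  have hpt : ∀ a ∈ range A, ∀ S : Finset (Fin N),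
      (c (S.map (rot N (2 * h) a h).toEmbedding) - c S) ^ 2
      ≤ (if Low h β a S then
            (c (S.map (rot N (2 * h * β) (a / β) h).toEmbedding) - c S) ^ 2 else 0)
        + (if High h β a S then
            (c (S.map (rot N (2 * h * β) (a / β) h).symm.toEmbedding) - c S) ^ 2 else 0)
        + (if Bad h β a S then
            2 * c (S.map (rot N (2 * h) a h).toEmbedding) ^ 2 + 2 * c S ^ 2 else 0) := by
    intro a _ S
    have n1 : 0 ≤ (if Low h β a S then
            (c (S.map (rot N (2 * h * β) (a / β) h).toEmbedding) - c S) ^ 2 else 0) := by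
      split_ifs <;> positivity
    have n2 : 0 ≤ (if High h β a S then
            (c (S.map (rot N (2 * h * β) (a / β) h).symm.toEmbedding) - c S) ^ 2 else 0) := by
      split_ifs <;> positivity
    have n3 : 0 ≤ (if Bad h β a S then
            2 * c (S.map (rot N (2 * h) a h).toEmbedding) ^ 2 + 2 * c S ^ 2 else 0) := by
      split_ifs <;> positivity
    by_cases hnone : ∀ i ∈ S, (i : ℕ) / (2 * h) ≠ a
    · rw [map_none hh hN2 hnone]
      have : (c S - c S) ^ 2 = 0 := by ring
      rw [this]
      rw [map_none hh hN2 hnone] at n3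
      linarith
    · push Not at hnone
      by_cases hL : ∀ i ∈ S, (i : ℕ) / (2 * h * β) = a / β → (i : ℕ) / h = 2 * a
      · have hlow : Low h β a S := ⟨hnone, hL⟩
        rw [if_pos hlow, map_low hh hβ hN hlow]
        rw [map_low hh hβ hN hlow] at n3
        linarith
      · by_cases hH : ∀ i ∈ S, (i : ℕ) / (2 * h * β) = a / β → (i : ℕ) / h = 2 * a + 1
        · have hhigh : High h β a S := ⟨hnone, hH⟩
          rw [if_pos hhigh, map_high hh hβ hN hhigh]
          rw [map_high hh hβ hN hhigh] at n3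
          linarith
        · push Not at hL hH
          have hbad : Bad h β a S := ⟨hnone, hL, hH⟩
          rw [if_pos hbad]
          have := sq_nonneg (c (S.map (rot N (2 * h) a h).toEmbedding) + c S)
          nlinarith
  -- the low part
  have hlowsum : ∀ (φ : ℕ → Finset (Fin N) → ℝ), (∀ d S, 0 ≤ φ d S) →
      ∑ a ∈ range A, ∑ S : Finset (Fin N), (if Low h β a S then φ (a / β) S else 0)
        ≤ ∑ d ∈ range D, ∑ S : Finset (Fin N), φ d S := by
    intro φ hφ
    rw [sum_comm, sum_comm (s := range D)]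
    apply sum_le_sum
    intro S _
    rw [← sum_filter]
    have hinj : Set.InjOn (fun a => a / β) ((range A).filter (fun a => Low h β a S)) := by
      intro a ha b hb hab
      simp only [coe_filter, Set.mem_ofPred_eq] at ha hb
      obtain ⟨i, hi, hia⟩ := ha.2.1
      obtain ⟨j, hj, hjb⟩ := hb.2.1
      have h1 := ha.2.2 j hj ((div_long hjb).trans (by exact hab.symm))
      have h3 := hb.2.2 j hj (div_long hjb)
      omega
    rw [← sum_image (f := fun d => φ d S) (g := fun a => a / β)
      (s := (range A).filter (fun a => Low h β a S))]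
    · apply sum_le_sum_of_subset_of_nonneg
      · intro d hd
        obtain ⟨a, ha, rfl⟩ := mem_image.mp hd
        exact hAD a (mem_filter.mp ha).1
      · intro d _ _; exact hφ d S
    · exact hinj
  have hhighsum : ∀ (φ : ℕ → Finset (Fin N) → ℝ), (∀ d S, 0 ≤ φ d S) →
      ∑ a ∈ range A, ∑ S : Finset (Fin N), (if High h β a S then φ (a / β) S else 0)
        ≤ ∑ d ∈ range D, ∑ S : Finset (Fin N), φ d S := by
    intro φ hφ
    rw [sum_comm, sum_comm (s := range D)]
    apply sum_le_sum
    intro S _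
    rw [← sum_filter]
    have hinj : Set.InjOn (fun a => a / β) ((range A).filter (fun a => High h β a S)) := by
      intro a ha b hb hab
      simp only [coe_filter, Set.mem_ofPred_eq] at ha hb
      obtain ⟨i, hi, hia⟩ := ha.2.1
      obtain ⟨j, hj, hjb⟩ := hb.2.1
      have h1 := ha.2.2 j hj ((div_long hjb).trans (by exact hab.symm))
      have h3 := hb.2.2 j hj (div_long hjb)
      omega
    rw [← sum_image (f := fun d => φ d S) (g := fun a => a / β)
      (s := (range A).filter (fun a => High h β a S))]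
    · apply sum_le_sum_of_subset_of_nonneg
      · intro d hd
        obtain ⟨a, ha, rfl⟩ := mem_image.mp hd
        exact hAD a (mem_filter.mp ha).1
      · intro d _ _; exact hφ d S
    · exact hinj
  have hsum1 : ∑ a ∈ range A, 4 * dst g (rot N (2 * h) a h)
      ≤ ∑ a ∈ range A, ∑ S : Finset (Fin N),
        ((if Low h β a S then
            (c (S.map (rot N (2 * h * β) (a / β) h).toEmbedding) - c S) ^ 2 else 0)
        + (if High h β a S then
            (c (S.map (rot N (2 * h * β) (a / β) h).symm.toEmbedding) - c S) ^ 2 else 0)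
        + (if Bad h β a S then
            2 * c (S.map (rot N (2 * h) a h).toEmbedding) ^ 2 + 2 * c S ^ 2 else 0)) := by
    apply sum_le_sum
    intro a ha
    rw [four_dst]
    apply sum_le_sum
    intro S _
    exact hpt a ha S
  simp only [sum_add_distrib] at hsum1
  have hlow' := hlowsum (fun d S => (c (S.map (rot N (2 * h * β) d h).toEmbedding) - c S) ^ 2)
    (fun d S => by positivity)
  have hhigh' := hhighsum (fun d S => (c (S.map (rot N (2 * h * β) d h).symm.toEmbedding) - c S) ^ 2)
    (fun d S => by positivity)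
  have e1 : ∑ d ∈ range D, ∑ S : Finset (Fin N),
      (c (S.map (rot N (2 * h * β) d h).toEmbedding) - c S) ^ 2
      = 4 * ∑ d ∈ range D, dst g (rot N (2 * h * β) d h) := by
    rw [mul_sum]
    apply sum_congr rfl
    intro d _
    rw [four_dst]
  have e2 : ∑ d ∈ range D, ∑ S : Finset (Fin N),
      (c (S.map (rot N (2 * h * β) d h).symm.toEmbedding) - c S) ^ 2
      = 4 * ∑ d ∈ range D, dst g (rot N (2 * h * β) d h) := by
    rw [mul_sum]
    apply sum_congr rfl
    intro d _
    rw [four_dst, ← Equiv.sum_comp (mapEquiv (rot N (2 * h * β) d h))]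
    apply sum_congr rfl
    intro S _
    have : (mapEquiv (rot N (2 * h * β) d h) S).map (rot N (2 * h * β) d h).symm.toEmbedding = S :=
      (mapEquiv (rot N (2 * h * β) d h)).left_inv S
    rw [this]
    change (c S - fc g (S.map (rot N (2 * h * β) d h).toEmbedding)) ^ 2 = _
    rw [hc]; ring
  have e3 : ∀ a ∈ range A, ∑ S : Finset (Fin N), (if Bad h β a S then
            2 * c (S.map (rot N (2 * h) a h).toEmbedding) ^ 2 + 2 * c S ^ 2 else 0)
      ≤ ∑ S : Finset (Fin N), (if Bad h β a S then 4 * c S ^ 2 else 0) := by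
    intro a _
    have r1 : ∀ S : Finset (Fin N), (if Bad h β a S then
            2 * c (S.map (rot N (2 * h) a h).toEmbedding) ^ 2 + 2 * c S ^ 2 else 0)
        ≤ (if Bad h β a (mapEquiv (rot N (2 * h) a h) S) then
            2 * c (mapEquiv (rot N (2 * h) a h) S) ^ 2 else 0)
          + (if Bad h β a S then 2 * c S ^ 2 else 0) := by
      intro S
      by_cases hb : Bad h β a S
      · have hb' : Bad h β a (mapEquiv (rot N (2 * h) a h) S) := bad_map hh hN2 hb
        rw [if_pos hb, if_pos hb, if_pos hb']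
        exact le_refl _
      · rw [if_neg hb, if_neg hb, add_zero]
        split_ifs <;> positivity
    refine (sum_le_sum fun S _ => r1 S).trans ?_
    rw [sum_add_distrib,
      Equiv.sum_comp (mapEquiv (rot N (2 * h) a h))
        (fun S => if Bad h β a S then 2 * c S ^ 2 else 0), ← sum_add_distrib]
    apply sum_le_sum
    intro S _
    split_ifs <;> linarith
  have e4 : ∑ a ∈ range A, ∑ S : Finset (Fin N), (if Bad h β a S then 4 * c S ^ 2 else 0)
      ≤ 8 * ∑ S : Finset (Fin N), (((hit h S).card : ℝ) - (hit (2 * h * β) S).card) * c S ^ 2 := by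
    rw [sum_comm, mul_sum]
    apply sum_le_sum
    intro S _
    rw [← sum_filter, sum_const, nsmul_eq_mul]
    have hcard := card_bad (h := h) (β := β) A S
    have hcard' : (((range A).filter (fun a => Bad h β a S)).card : ℝ)
        + 2 * (hit (2 * h * β) S).card ≤ 2 * (hit h S).card := by exact_mod_cast hcard
    have : (((range A).filter (fun a => Bad h β a S)).card : ℝ)
        ≤ 2 * (((hit h S).card : ℝ) - (hit (2 * h * β) S).card) := by linarith
    nlinarith [sq_nonneg (c S)]
  have e5 := sum_le_sum e3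
  rw [← mul_sum] at hsum1
  linarith

/-- The one-scale inequality. -/
lemma one_scale (hh : 0 < h) (hβ : 0 < β) (hN : 2 * h * β ∣ N) {g : (Fin N → Bool) → ℝ}
    (hg : ∀ x, g x = 1 ∨ g x = -1) :
    ∑ a ∈ range (N / (2 * h)), dst g (rot N (2 * h) a h)
      ≤ 2 * h * ∑ d ∈ range (N / (2 * h * β)), dst g (rot N (2 * h * β) d 1)
        + 2 * (∑ S : Finset (Fin N), ((hit h S).card : ℝ) * fc g S ^ 2
            - ∑ S : Finset (Fin N), ((hit (2 * h * β) S).card : ℝ) * fc g S ^ 2) := by
  have hM : 0 < 2 * h * β := by positivity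
  refine (one_scale_sq hh hβ hN g).trans ?_
  apply add_le_add
  · rw [mul_assoc (2:ℝ)]
    apply mul_le_mul_of_nonneg_left _ (by norm_num)
    rw [mul_sum]
    apply sum_le_sum
    intro d _
    rw [rot_pow hM hN d h]
    exact dst_pow hg _ _
  · apply le_of_eq
    congr 1
    rw [← sum_sub_distrib]
    apply sum_congr rfl
    intro S _
    ring

end OneScale

end Vale.Agent.P238
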